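import Mathlib
import Vale.Agent.P136.Identity
import Vale.Agent.P136.Full.Alg.Pd

/-!
# P136: pointwise algebra of the `τ²` coefficient of the bilinear form
-/

namespace Vale.Agent.P136.Full

noncomputable section

/-- The matrix `a ⊗ θ`. -/
def tens (a θ : C3) : Fin 3 → Fin 3 → ℂ := fun i j => a i * θ j

/-- The coefficient of `τ²` in the energy density of `exp (τ θ·x) (τ W + a)` and
`exp (-τ θ·x) (τ h θ + b)`, in terms of the values and the Jacobians. -/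
def secondDens (L M : ℝ) (θ W a b : C3) (h : ℂ) (JW Ja Jb : Fin 3 → Fin 3 → ℂ) (hv : C3) : ℂ :=
  cdens L M (tens W θ) Jb + cdens L M (JW + tens a θ) (tens θ hv - tens b θ) +
    cdens L M Ja (-(h • tens θ θ))

/-- The coefficient of `τ` of the same density. -/
def firstDens (L M : ℝ) (θ a b : C3) (JW Ja Jb : Fin 3 → Fin 3 → ℂ) (hv : C3) : ℂ :=
  cdens L M (JW + tens a θ) Jb + cdens L M Ja (tens θ hv - tens b θ)

/-- The value of `secondDens` for a null vector orthogonal to `W`. -/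
def secondVal (L M : ℂ) (θ W a b : C3) (h : ℂ) (JW Ja Jb : Fin 3 → Fin 3 → ℂ) (hv : C3) : ℂ :=
  L * (((∑ i, JW i i) + bdot θ a) * (bdot θ hv - bdot θ b)) +
    M * ((∑ i, ∑ j, W i * (Jb i j * θ j)) + (∑ i, ∑ j, θ i * (Jb i j * W j)) +
      (∑ i, ∑ j, JW i j * θ j * (hv i - b i)) + bdot θ a * (bdot θ hv - bdot θ b) -
      2 * h * ∑ i, ∑ j, θ i * θ j * Ja i j)

theorem secondDens_eq (L M : ℝ) {θ W : C3} (a b : C3) (h : ℂ) {JW : Fin 3 → Fin 3 → ℂ}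
    (Ja Jb : Fin 3 → Fin 3 → ℂ) (hv : C3) (hθ : bdot θ θ = 0) (hW : bdot θ W = 0)
    (hJW : ∀ j, ∑ i, θ i * JW i j = 0) :
    secondDens L M θ W a b h JW Ja Jb hv = secondVal L M θ W a b h JW Ja Jb hv := by
  have e0 := hJW 0
  have e1 := hJW 1
  have e2 := hJW 2
  simp only [secondDens, secondVal, cdens, tens, bdot, Pi.add_apply, Pi.sub_apply, Pi.neg_apply,
    Pi.smul_apply, smul_eq_mul, Fin.sum_univ_three] at *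
  linear_combination ((L : ℂ) * (Jb 0 0 + Jb 1 1 + Jb 2 2)) * hW +
    (-(L : ℂ) * h * (Ja 0 0 + Ja 1 1 + Ja 2 2) +
      (M : ℂ) * (a 0 * (hv 0 - b 0) + a 1 * (hv 1 - b 1) + a 2 * (hv 2 - b 2))) * hθ +
    (M : ℂ) * (hv 0 - b 0) * e0 + (M : ℂ) * (hv 1 - b 1) * e1 + (M : ℂ) * (hv 2 - b 2) * e2

/-- The expansion of the density in powers of `τ`: the powers four and three vanish. -/
theorem cdens_expand (L M : ℝ) {θ W : C3} (a b : C3) (h τ : ℂ) {JW : Fin 3 → Fin 3 → ℂ}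
    (Ja Jb : Fin 3 → Fin 3 → ℂ) (hv : C3) (hθ : bdot θ θ = 0) (hW : bdot θ W = 0)
    (hJW : ∀ j, ∑ i, θ i * JW i j = 0) :
    cdens L M (τ ^ 2 • tens W θ + τ • (JW + tens a θ) + Ja)
        (-(τ ^ 2 * h) • tens θ θ + τ • (tens θ hv - tens b θ) + Jb) =
      τ ^ 2 * secondDens L M θ W a b h JW Ja Jb hv + τ * firstDens L M θ a b JW Ja Jb hv +
        cdens L M Ja Jb := by
  have e0 := hJW 0
  have e1 := hJW 1
  have e2 := hJW 2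
  simp only [secondDens, firstDens, cdens, tens, bdot, Pi.add_apply, Pi.sub_apply, Pi.neg_apply,
    Pi.smul_apply, smul_eq_mul, Fin.sum_univ_three] at *
  linear_combination (-(τ ^ 4 * h * ((L : ℂ) + 2 * M)) * (θ 0 * θ 0 + θ 1 * θ 1 + θ 2 * θ 2) +
      τ ^ 3 * ((L : ℂ) + M) * (θ 0 * (hv 0 - b 0) + θ 1 * (hv 1 - b 1) + θ 2 * (hv 2 - b 2))) * hW +
    τ ^ 3 * ((M : ℂ) * (W 0 * (hv 0 - b 0) + W 1 * (hv 1 - b 1) + W 2 * (hv 2 - b 2)) -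
      h * ((L : ℂ) * (JW 0 0 + JW 1 1 + JW 2 2) +
        ((L : ℂ) + 2 * M) * (θ 0 * a 0 + θ 1 * a 1 + θ 2 * a 2))) * hθ -
    2 * τ ^ 3 * h * (M : ℂ) * θ 0 * e0 - 2 * τ ^ 3 * h * (M : ℂ) * θ 1 * e1 -
    2 * τ ^ 3 * h * (M : ℂ) * θ 2 * e2

theorem cdens_smul_smul (L M : ℝ) (c d : ℂ) (G H : Fin 3 → Fin 3 → ℂ) :
    cdens L M (c • G) (d • H) = c * d * cdens L M G H := by
  simp only [cdens, Pi.smul_apply, smul_eq_mul, Fin.sum_univ_three]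
  ring

/-- The algebraic identity behind the leading identity. -/
theorem leading_alg {μ₁ A₁ μ₂ A₂ : ℂ} (hμ₁ : μ₁ ≠ 0) (hP₁ : A₁ + μ₁ ≠ 0) (hμ₂ : μ₂ ≠ 0)
    (hP₂ : A₂ + μ₂ ≠ 0) (θ u₁ u₂ H₁ H₂ W ηW q DW : C3) (dA₁ dA₂ ηP g Dg Pi' DPi p : ℂ)
    (hg : g = -(μ₁ * ηP / (A₁ + μ₁))) (hDg : Dg = -(A₁ * bdot θ ηW / (2 * (A₁ + μ₁))))
    (hp : p = bdot θ ηW / (A₁ + μ₁))
    (hq : q = fun i => μ₁⁻¹ * ηW i + 2 * g * (u₁ i / μ₁ ^ 2))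
    (hDW : DW = fun i => -(bdot θ u₂ / (2 * μ₂)) * W i - (A₂ * Pi' + bdot u₂ W) / (2 * μ₂) * θ i)
    (hDPi : DPi = (μ₂ ^ 2 * bdot W (fun i => -H₂ i / μ₂ ^ 2 + 2 * u₂ i * bdot θ u₂ / μ₂ ^ 3) -
      (dA₂ - A₂ * bdot θ u₂ / μ₂) * Pi') / (A₂ + μ₂)) :
    (((A₁ - μ₁) - (A₂ - μ₂)) + (μ₁ - μ₂)) * Pi' * (-p) + 2 * (μ₁ - μ₂) * (μ₁⁻¹ * g) * DPi -
        (bdot θ u₁ - bdot θ u₂) * bdot W q + bdot W (u₁ - u₂) * (-p) +
        2 * (μ₁⁻¹ * g) * bdot DW (u₁ - u₂) - 2 * (μ₁ - μ₂) * bdot DW q +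
        ((-(bdot θ u₁) / μ₁ ^ 2) * g + μ₁⁻¹ * Dg) * (2 * ((A₁ - A₂) * Pi' + bdot W (u₁ - u₂))) +
        μ₁⁻¹ * g * (2 * ((dA₁ - dA₂) * Pi' + (A₁ - A₂) * DPi + bdot DW (u₁ - u₂) +
          bdot W (H₁ - H₂))) =
      -2 * (bdot ηW (fun i => DW i -
          (-(bdot θ u₁ / (2 * μ₁)) * W i - (A₁ * Pi' + bdot u₁ W) / (2 * μ₁) * θ i)) +
        ηP * (DPi - (μ₁ ^ 2 * bdot W (fun i => -H₁ i / μ₁ ^ 2 + 2 * u₁ i * bdot θ u₁ / μ₁ ^ 3) -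
          (dA₁ - A₁ * bdot θ u₁ / μ₁) * Pi') / (A₁ + μ₁))) := by
  subst hq hDW hDPi hp hDg hg
  simp only [bdot_three, Pi.sub_apply]
  field_simp
  ring

end

end Vale.Agent.P136.Full
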