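import Mathlib
import Vale.Agent.P136.Full.Spec
import Vale.Agent.P136.Full.Form.Green
import Vale.Agent.P136.Full.Form.Split
import Vale.Agent.P136.Full.Alg.Lame
import Vale.Agent.P136.Full.Orth.LeadingAlg

/-!
# P136: the leading identity of the bilinear form on two exponential solutions
-/

open MeasureTheory Set Filter Metric
open scoped Topology ContDiff

namespace Vale.Agent.P136.Full

noncomputable section

/-- The coefficient of `τ²` of the bilinear density, for fields. -/
def Moduli.secondCoef (M : Moduli) (θ : C3) (W a : Space → C3) (h : Space → ℂ) (b : Space → C3)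
    (x : Space) : ℂ :=
  secondDens (M.lam x) (M.mu x) θ (W x) (a x) (b x) (h x) (jac W x) (jac a x) (jac b x) (grad h x)

/-- The amplitude `(r, g)` of an exponential solution attached to an adjoint amplitude. -/
def Moduli.adjSeed (M : Moduli) (η : Space → Amp) (x : Space) : Amp :=
  (M.nC x • (η x).1, -(M.muC x * (η x).2 / (M.AC x + M.muC x)))

theorem contDiff_adjSeed (M : Moduli) {η : Space → Amp} (hη : ContDiff ℝ ∞ η) :
    ContDiff ℝ ∞ (M.adjSeed η) := by
  refine ContDiff.prodMk (M.contDiff_nC.smul hη.fst) ?_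
  simp only [div_eq_mul_inv]
  exact ((M.contDiff_muC.mul hη.snd).mul
    ((M.contDiff_AC.add M.contDiff_muC).inv M.AC_add_muC_ne)).neg

theorem Moduli.hess_mC (M : Moduli) (x : Space) (i j : Fin 3) :
    hess M.mC x i j = -hess M.muC x i j / M.muC x ^ 2 +
      2 * pd i M.muC x * pd j M.muC x / M.muC x ^ 3 := by
  have hm := M.contDiff_muC
  have hn : ContDiff ℝ ∞ fun y => -pd i M.muC y := (contDiff_pd hm i).neg
  have he : pd i M.mC = fun y => -pd i M.muC y / M.muC y ^ 2 := funext (M.pd_mC i)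
  simp only [hess]
  rw [he, pd_div j (differentiableAt_of hn x) (differentiableAt_of (hm.pow 2) x)
    (pow_ne_zero 2 (M.muC_ne x)), pd_neg, show (fun y => M.muC y ^ 2) = fun y => M.muC y * M.muC y from
      funext fun y => pow_two _, pd_mul j (differentiableAt_of hm x) (differentiableAt_of hm x)]
  have := M.muC_ne x
  field_simp
  ring

theorem Moduli.hessVec_mC (M : Moduli) (θ : C3) (x : Space) :
    hessVec M.mC x θ = fun i => -hessVec M.muC x θ i / M.muC x ^ 2 +
      2 * pd i M.muC x * bdot θ (grad M.muC x) / M.muC x ^ 3 := by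
  funext i
  simp only [hessVec, M.hess_mC, bdot_three, grad, Fin.sum_univ_three]
  ring

theorem Dth_bdot_grad {v : Space → C3} {f : Space → ℂ} (θ : C3) (hv : ContDiff ℝ ∞ v)
    (hf : ContDiff ℝ ∞ f) (x : Space) :
    Dth θ (fun y => bdot (v y) (grad f y)) x =
      bdot (fun i => Dth θ (fun y => v y i) x) (grad f x) + bdot (v x) (hessVec f x θ) := by
  have d1 : ∀ i, DifferentiableAt ℝ (fun y => v y i) x := fun i =>
    Moduli.differentiableAt_of (contDiff_pi.1 hv i) x
  have d2 : ∀ i, DifferentiableAt ℝ (pd i f) x := fun i =>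
    Moduli.differentiableAt_of (contDiff_pd hf i) x
  have e : ∀ j, pd j (fun y => bdot (v y) (grad f y)) x =
      ∑ i, (pd j (fun y => v y i) x * pd i f x + v x i * pd j (pd i f) x) := by
    intro j
    simp only [bdot, grad]
    rw [pd_sum Finset.univ j fun i _ => (d1 i).fun_mul (d2 i)]
    exact Finset.sum_congr rfl fun i _ => pd_mul j (d1 i) (d2 i)
  simp only [Dth, e]
  simp only [bdot, grad, hessVec, hess, smul_eq_mul, Fin.sum_univ_three]
  ring

/-- The flux in the first integration by parts. -/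
def flux (θ : C3) (δ h : Space → ℂ) (W b : Space → C3) (j : Fin 3) (y : Space) : ℂ :=
  δ y * (θ j * (bdot (W y) (b y) + bdot (W y) (grad h y)) +
    (bdot θ (b y) - Dth θ h y) * W y j + 2 * h y * Dth θ (fun z => W z j) y)

theorem contDiff_flux (θ : C3) {δ h : Space → ℂ} {W b : Space → C3} (hδ : ContDiff ℝ ∞ δ)
    (hh : ContDiff ℝ ∞ h) (hW : ContDiff ℝ ∞ W) (hb : ContDiff ℝ ∞ b) (j : Fin 3) :
    ContDiff ℝ ∞ (flux θ δ h W b j) :=
  hδ.mul (((contDiff_const.mul ((contDiff_bdot hW hb).add (contDiff_bdot hW (contDiff_grad hh)))).add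
    (((contDiff_bdot contDiff_const hb).sub (contDiff_Dth hh θ)).mul (contDiff_pi.1 hW j))).add
      ((contDiff_const.mul hh).mul (contDiff_Dth (contDiff_pi.1 hW j) θ)))

/-- The first integration by parts, pointwise. -/
theorem secondVal_eq_flux {θ : C3} {δl δ h P : Space → ℂ} {W a b : Space → C3}
    (hδ : ContDiff ℝ ∞ δ) (hh : ContDiff ℝ ∞ h) (hW : ContDiff ℝ ∞ W) (ha : ContDiff ℝ ∞ a)
    (hb : ContDiff ℝ ∞ b) {x : Space} (hP : ∀ᶠ y in 𝓝 x, bdot θ (a y) + divv W y = P y) :
    secondVal (δl x) (δ x) θ (W x) (a x) (b x) (h x) (jac W x) (jac a x) (jac b x) (grad h x) =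
      (∑ j, pd j (flux θ δ h W b j) x) +
      ((δl x + δ x) * P x * (bdot θ (grad h x) - bdot θ (b x)) - 2 * δ x * h x * Dth θ P x -
        bdot θ (grad δ x) * bdot (W x) (b x + grad h x) +
        bdot (W x) (grad δ x) * (bdot θ (grad h x) - bdot θ (b x)) -
        2 * h x * bdot (fun i => Dth θ (fun z => W z i) x) (grad δ x) -
        2 * δ x * bdot (fun i => Dth θ (fun z => W z i) x) (b x + grad h x)) := by
  have hθa : bdot θ (a x) = P x - divv W x := eq_sub_of_add_eq hP.self_of_nhds
  have hdW := contDiff_divv hW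
  have hba : ContDiff ℝ ∞ fun y => bdot θ (a y) := contDiff_bdot contDiff_const ha
  have hdP : ∀ j, pd j P x = pd j (fun y => bdot θ (a y)) x + pd j (divv W) x := fun j => by
    rw [← pd_congr hP j, pd_add j (Moduli.differentiableAt_of hba x) (Moduli.differentiableAt_of hdW x)]
  have d : ∀ {f : Space → ℂ}, ContDiff ℝ ∞ f → DifferentiableAt ℝ f x := fun h' =>
    Moduli.differentiableAt_of h' x
  have hWc := contDiff_pi.1 hW
  have hac := contDiff_pi.1 ha
  have hbc := contDiff_pi.1 hb
  have e1 : ∀ j, pd j (fun y => bdot θ (a y)) x = ∑ i, θ i * pd j (fun y => a y i) x := fun j => by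
    simp only [bdot]
    rw [pd_sum Finset.univ j fun i _ => d (contDiff_const.mul (hac i))]
    refine Finset.sum_congr rfl fun i _ => ?_
    rw [pd_mul j (differentiableAt_const _) (d (hac i)), pd_const, zero_mul, zero_add]
  have e2 : ∀ j, pd j (divv W) x = ∑ i, pd j (pd i fun y => W y i) x := fun j =>
    pd_sum Finset.univ j fun i _ => d (contDiff_pd (hWc i) i)
  have e3 : ∀ j, pd j (fun y => bdot (W y) (b y)) x =
      ∑ i, (pd j (fun y => W y i) x * b x i + W x i * pd j (fun y => b y i) x) := fun j => by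
    simp only [bdot]
    rw [pd_sum Finset.univ j fun i _ => (d (hWc i)).fun_mul (d (hbc i))]
    exact Finset.sum_congr rfl fun i _ => pd_mul j (d (hWc i)) (d (hbc i))
  have e4 : ∀ j, pd j (fun y => bdot (W y) (grad h y)) x =
      ∑ i, (pd j (fun y => W y i) x * pd i h x + W x i * pd j (pd i h) x) := fun j => by
    simp only [bdot, grad]
    rw [pd_sum Finset.univ j fun i _ => (d (hWc i)).fun_mul (d (contDiff_pd hh i))]
    exact Finset.sum_congr rfl fun i _ => pd_mul j (d (hWc i)) (d (contDiff_pd hh i))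
  have e5 : ∀ j, pd j (fun y => bdot θ (b y)) x = ∑ i, θ i * pd j (fun y => b y i) x := fun j => by
    simp only [bdot]
    rw [pd_sum Finset.univ j fun i _ => d (contDiff_const.mul (hbc i))]
    refine Finset.sum_congr rfl fun i _ => ?_
    rw [pd_mul j (differentiableAt_const _) (d (hbc i)), pd_const, zero_mul, zero_add]
  have e6 : ∀ (f : Space → ℂ), ContDiff ℝ ∞ f → ∀ j, pd j (Dth θ f) x = ∑ i, θ i * pd j (pd i f) x :=
    fun f hf j => by
      rw [show Dth θ f = fun y => ∑ i, θ i * pd i f y from rfl,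
        pd_sum Finset.univ j fun i _ => d (contDiff_const.mul (contDiff_pd hf i))]
      refine Finset.sum_congr rfl fun i _ => ?_
      rw [pd_mul j (differentiableAt_const _) (d (contDiff_pd hf i)), pd_const, zero_mul, zero_add]
  have key : ∀ j, pd j (flux θ δ h W b j) x =
      pd j δ x * (θ j * (bdot (W x) (b x) + bdot (W x) (grad h x)) +
        (bdot θ (b x) - Dth θ h x) * W x j + 2 * h x * Dth θ (fun z => W z j) x) +
      δ x * (θ j * (pd j (fun y => bdot (W y) (b y)) x + pd j (fun y => bdot (W y) (grad h y)) x) +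
        ((pd j (fun y => bdot θ (b y)) x - pd j (Dth θ h) x) * W x j +
          (bdot θ (b x) - Dth θ h x) * pd j (fun z => W z j) x) +
        2 * (pd j h x * Dth θ (fun z => W z j) x + h x * pd j (Dth θ fun z => W z j) x)) := by
    intro j
    have cWb : ContDiff ℝ ∞ fun y => bdot (W y) (b y) := contDiff_bdot hW hb
    have cWh : ContDiff ℝ ∞ fun y => bdot (W y) (grad h y) := contDiff_bdot hW (contDiff_grad hh)
    have cθb : ContDiff ℝ ∞ fun y => bdot θ (b y) := contDiff_bdot contDiff_const hb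
    have cDh : ContDiff ℝ ∞ (Dth θ h) := contDiff_Dth hh θ
    have cDW : ContDiff ℝ ∞ (Dth θ fun z => W z j) := contDiff_Dth (hWc j) θ
    have dA := (differentiableAt_const (θ j)).fun_mul ((d cWb).fun_add (d cWh))
    have dB := ((d cθb).fun_sub (d cDh)).fun_mul (d (hWc j))
    have dC := ((differentiableAt_const (2 : ℂ)).fun_mul (d hh)).fun_mul (d cDW)
    unfold flux
    rw [pd_mul j (d hδ) ((dA.fun_add dB).fun_add dC), pd_add j (dA.fun_add dB) dC, pd_add j dA dB,
      pd_mul j (differentiableAt_const _) ((d cWb).fun_add (d cWh)), pd_add j (d cWb) (d cWh),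
      pd_mul j ((d cθb).fun_sub (d cDh)) (d (hWc j)), pd_sub j (d cθb) (d cDh),
      pd_mul j ((differentiableAt_const (2 : ℂ)).fun_mul (d hh)) (d cDW),
      pd_mul j (differentiableAt_const _) (d hh), pd_const, pd_const]
    ring
  simp only [key, e3, e4, e5, e6 h hh, e6 _ (hWc _)]
  have hDP : Dth θ P x = ∑ j, θ j * ((∑ i, θ i * pd j (fun y => a y i) x) +
      ∑ i, pd j (pd i fun y => W y i) x) := by
    simp only [Dth, hdP, e1, e2, smul_eq_mul]
  rw [hDP, secondVal, hθa]
  simp only [jac, Dth, divv, grad, bdot, Fin.sum_univ_three, smul_eq_mul, Pi.add_apply]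
  rw [pd_comm (x := x) hh 1 0, pd_comm (x := x) hh 2 0, pd_comm (x := x) hh 2 1,
    pd_comm (x := x) (hWc 0) 1 0, pd_comm (x := x) (hWc 0) 2 0,
    pd_comm (x := x) (hWc 1) 1 0, pd_comm (x := x) (hWc 1) 2 1,
    pd_comm (x := x) (hWc 2) 2 0, pd_comm (x := x) (hWc 2) 2 1]
  ring

theorem first_order_diff {Ω : Set Space} {M₁ M₂ : Moduli} (h : FirstOrderEq Ω M₁ M₂) {x : Space}
    (hx : x ∈ frontier Ω) :
    M₁.muC x = M₂.muC x ∧ M₁.AC x = M₂.AC x ∧ grad M₁.muC x = grad M₂.muC x := by
  obtain ⟨e1, e2, -, e4⟩ := h x hx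
  refine ⟨by simp [Moduli.muC, e2], by simp [Moduli.AC, Moduli.A, e1, e2], funext fun i => ?_⟩
  simp only [grad, show M₁.muC = fun y => (M₁.mu y : ℂ) from rfl,
    show M₂.muC = fun y => (M₂.mu y : ℂ) from rfl,
    pd_ofReal i (M₁.mu_smooth.differentiable (by simp) x),
    pd_ofReal i (M₂.mu_smooth.differentiable (by simp) x), e4]

/-- The leading identity: along a null direction, the `τ²` coefficient of the difference of the two
bilinear forms is the pairing of the adjoint amplitude with the difference of the amplitude systems. -/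
theorem leading_identity {Ω : Set Space} {M₁ M₂ : Moduli} {θ : C3} {R : ℝ} (hΩ : IsOpen Ω)
    (hR : closure Ω ⊆ ball (0 : Space) R) (hF : FirstOrderEq Ω M₁ M₂) (hθ : IsNull θ)
    {Y η : Space → Amp} {a : Space → C3} {t : Space → ℂ} (hY : ContDiff ℝ ∞ Y)
    (hη : ContDiff ℝ ∞ η) (ha : ContDiff ℝ ∞ a) (ht : ContDiff ℝ ∞ t)
    (hperp : ∀ x ∈ ball (0 : Space) R, bdot θ (Y x).1 = 0)
    (heqn : ∀ x ∈ ball (0 : Space) R, Dth θ Y x = M₂.amat θ x (Y x))
    (hdiv : ∀ x ∈ ball (0 : Space) R, bdot θ (a x) + divv (fun y => (Y y).1) x = (Y x).2)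
    (hadj : ∀ x ∈ ball (0 : Space) R, Dth θ η x + M₁.amatT θ x (η x) = 0) :
    ∫ x in Ω, (M₁.secondCoef θ (fun y => (Y y).1) a (fun y => -(M₁.mC y * (M₁.adjSeed η y).2))
          (fun y => M₁.disp (M₁.adjSeed η) y + t y • θ) x -
        M₂.secondCoef θ (fun y => (Y y).1) a (fun y => -(M₁.mC y * (M₁.adjSeed η y).2))
          (fun y => M₁.disp (M₁.adjSeed η) y + t y • θ) x) =
      -2 * ∫ x in Ω, dot4 (η x) (M₂.amat θ x (Y x) - M₁.amat θ x (Y x)) := by
  have hbd : Bornology.IsBounded Ω := isBounded_ball.subset (subset_closure.trans hR)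
  set S := M₁.adjSeed η with hS
  have cS : ContDiff ℝ ∞ S := contDiff_adjSeed M₁ hη
  set k : Space → ℂ := fun y => M₁.mC y * (S y).2 with hk
  have ck : ContDiff ℝ ∞ k := M₁.contDiff_mC.mul cS.snd
  set h : Space → ℂ := fun y => -k y with hh
  have ch : ContDiff ℝ ∞ h := ck.neg
  set b : Space → C3 := fun y => M₁.disp S y + t y • θ with hb
  have cb : ContDiff ℝ ∞ b := (M₁.contDiff_disp cS).add (ht.smul contDiff_const)
  set W : Space → C3 := fun y => (Y y).1 with hW
  have cW : ContDiff ℝ ∞ W := hY.fst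
  set δ : Space → ℂ := fun y => M₁.muC y - M₂.muC y with hδ
  have cδ : ContDiff ℝ ∞ δ := M₁.contDiff_muC.sub M₂.contDiff_muC
  set δl : Space → ℂ := fun y => M₁.lamC y - M₂.lamC y with hδl
  set Φ : Space → ℂ := fun y => 2 * ((M₁.AC y - M₂.AC y) * (Y y).2 + bdot (W y) (grad δ y)) with hΦ
  have cΦ : ContDiff ℝ ∞ Φ := contDiff_const.mul
    (((M₁.contDiff_AC.sub M₂.contDiff_AC).mul hY.snd).add (contDiff_bdot cW (contDiff_grad cδ)))
  set Z : Fin 3 → Space → ℂ := fun j y => flux θ δ h W b j y - θ j * (k y * Φ y) with hZ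
  have cZ : ∀ j, ContDiff ℝ ∞ (Z j) := fun j =>
    (contDiff_flux θ cδ ch cW cb j).sub (contDiff_const.mul (ck.mul cΦ))
  have hZ0 : ∀ j, ∀ x ∈ frontier Ω, Z j x = 0 := by
    intro j x hx
    obtain ⟨e1, e2, e3⟩ := first_order_diff hF hx
    have hgδ : grad δ x = 0 := funext fun i => by
      have := congr_fun e3 i
      simp only [grad] at this
      simp [grad, hδ, pd_sub i (Moduli.differentiableAt_of M₁.contDiff_muC x)
        (Moduli.differentiableAt_of M₂.contDiff_muC x), this]
    simp only [hZ, flux, hΦ, hgδ]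
    simp [hδ, e1, e2, bdot]
  have point : ∀ x ∈ Ω, M₁.secondCoef θ W a h b x - M₂.secondCoef θ W a h b x =
      (∑ j, pd j (Z j) x) + -2 * dot4 (η x) (M₂.amat θ x (Y x) - M₁.amat θ x (Y x)) := by
    intro x hx
    have hxR : x ∈ ball (0 : Space) R := hR (subset_closure hx)
    have hnhds : ball (0 : Space) R ∈ 𝓝 x := isOpen_ball.mem_nhds hxR
    have d : ∀ {f : Space → ℂ}, ContDiff ℝ ∞ f → DifferentiableAt ℝ f x := fun h' =>
      Moduli.differentiableAt_of h' x
    have dY : DifferentiableAt ℝ Y x := hY.differentiable (by simp) x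
    have dη : DifferentiableAt ℝ η x := hη.differentiable (by simp) x
    have hJW : ∀ j, ∑ i, θ i * jac W x i j = 0 := by
      intro j
      have e0 : pd j (fun y => bdot θ (W y)) x = 0 :=
        (pd_congr (by filter_upwards [hnhds] with y hy using hperp y hy) j).trans (pd_const j 0 x)
      simp only [bdot] at e0
      rw [pd_sum Finset.univ j fun i _ => d (contDiff_const.mul (contDiff_pi.1 cW i))] at e0
      rw [← e0]
      refine Finset.sum_congr rfl fun i _ => ?_
      rw [pd_mul j (differentiableAt_const _) (d (contDiff_pi.1 cW i)), pd_const, zero_mul, zero_add]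
      rfl
    have hsplit : M₁.secondCoef θ W a h b x - M₂.secondCoef θ W a h b x =
        secondVal (δl x) (δ x) θ (W x) (a x) (b x) (h x) (jac W x) (jac a x) (jac b x) (grad h x) := by
      simp only [Moduli.secondCoef,
        secondDens_eq (W := W x) _ _ (a x) (b x) (h x) (jac a x) (jac b x) (grad h x) hθ.1 (hperp x hxR) hJW]
      simp only [secondVal, hδ, hδl, Moduli.muC, Moduli.lamC]
      ring
    have hP : ∀ᶠ y in 𝓝 x, bdot θ (a y) + divv W y = (Y y).2 := by
      filter_upwards [hnhds] with y hy using hdiv y hy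
    rw [hsplit, secondVal_eq_flux cδ ch cW ha cb hP]
    have hθZ : ∑ j, pd j (Z j) x = (∑ j, pd j (flux θ δ h W b j) x) -
        Dth θ (fun y => k y * Φ y) x := by
      simp only [Dth, smul_eq_mul]
      rw [← Finset.sum_sub_distrib]
      refine Finset.sum_congr rfl fun j _ => ?_
      simp only [hZ]
      rw [pd_sub j (d (contDiff_flux θ cδ ch cW cb j)) (d (contDiff_const.mul (ck.mul cΦ))),
        pd_mul j (differentiableAt_const _) (d (ck.mul cΦ)), pd_const, zero_mul, zero_add]
    rw [hθZ]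
    -- the values of the amplitude equations
    have eY := heqn x hxR
    have eW : (fun i => Dth θ (fun z => W z i) x) = (M₂.amat θ x (Y x)).1 := by
      funext i
      rw [Dth_apply θ i dY.fst, Dth_fst θ dY, eY]
    have eP : Dth θ (fun y => (Y y).2) x = (M₂.amat θ x (Y x)).2 := by rw [Dth_snd θ dY, eY]
    have eη : Dth θ (fun y => (η y).2) x = -(M₁.amatT θ x (η x)).2 := by
      rw [Dth_snd θ dη, eq_neg_of_add_eq_zero_left (hadj x hxR)]
      rfl
    have cη2 : ContDiff ℝ ∞ fun y => (η y).2 := hη.snd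
    have cS2 : ContDiff ℝ ∞ fun y => (S y).2 := cS.snd
    set g := (S x).2 with hg
    set Dg := Dth θ (fun y => (S y).2) x with hDg
    have hg' : g = -(M₁.muC x * (η x).2 / (M₁.AC x + M₁.muC x)) := rfl
    have hDg' : Dg = -(M₁.AC x * bdot θ (η x).1 / (2 * (M₁.AC x + M₁.muC x))) := by
      have hAm : ContDiff ℝ ∞ fun y => M₁.AC y + M₁.muC y := M₁.contDiff_AC.add M₁.contDiff_muC
      have e1 : ∀ j, pd j (fun y => (S y).2) x = -((
          (pd j M₁.muC x * (η x).2 + M₁.muC x * pd j (fun y => (η y).2) x) *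
            (M₁.AC x + M₁.muC x) -
          M₁.muC x * (η x).2 * (pd j M₁.AC x + pd j M₁.muC x)) /
            (M₁.AC x + M₁.muC x) ^ 2) := by
        intro j
        simp only [hS, Moduli.adjSeed]
        rw [pd_neg, pd_div j ((d M₁.contDiff_muC).fun_mul (d cη2)) (d hAm) (M₁.AC_add_muC_ne x),
          pd_mul j (d M₁.contDiff_muC) (d cη2), pd_add j (d M₁.contDiff_AC) (d M₁.contDiff_muC)]
      have e2 : Dg = -(((Dth θ M₁.muC x * (η x).2 + M₁.muC x * Dth θ (fun y => (η y).2) x) *
            (M₁.AC x + M₁.muC x) -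
          M₁.muC x * (η x).2 * (Dth θ M₁.AC x + Dth θ M₁.muC x)) /
            (M₁.AC x + M₁.muC x) ^ 2) := by
        simp only [hDg, Dth, e1, smul_eq_mul, Fin.sum_univ_three]
        ring
      rw [e2, eη]
      simp only [Moduli.amatT]
      have := M₁.muC_ne x
      have := M₁.AC_add_muC_ne x
      field_simp
      ring
    have hnn : M₁.nC x * M₁.nC x = (M₁.muC x)⁻¹ := by
      rw [M₁.nC_eq, ← mul_inv, M₁.sqC_mul_sqC]
    have hbh : ∀ i, b x i + grad h x i = (M₁.muC x)⁻¹ * (η x).1 i +
        2 * g * (pd i M₁.muC x / M₁.muC x ^ 2) + t x * θ i := by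
      intro i
      simp only [hb, hh, hk, grad, Pi.add_apply, Pi.smul_apply, smul_eq_mul, Moduli.disp, Pi.sub_apply,
        pd_neg, pd_mul i (d M₁.contDiff_mC) (d cS2)]
      rw [show (S x).1 i = M₁.nC x * (η x).1 i from rfl, ← mul_assoc, hnn, M₁.pd_mC]
      ring
    have hbθ : bdot θ (b x) = bdot θ (η x).1 / M₁.muC x + Dg / M₁.muC x +
        g * (bdot θ (grad M₁.muC x) / M₁.muC x ^ 2) := by
      have e0 := hθ.1
      rw [bdot_three] at e0
      simp only [hb, bdot_three, Moduli.disp, grad, Pi.add_apply, Pi.sub_apply, Pi.smul_apply,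
        smul_eq_mul, M₁.pd_mC, hDg, Dth, Fin.sum_univ_three,
        show ∀ i, (S x).1 i = M₁.nC x * (η x).1 i from fun i => rfl, ← mul_assoc (M₁.nC x), hnn,
        M₁.mC_eq]
      linear_combination (t x) * e0
    have hDk : Dth θ k x = (-(bdot θ (grad M₁.muC x)) / M₁.muC x ^ 2) * g +
        (M₁.muC x)⁻¹ * Dg := by
      simp only [hk]
      rw [Dth_mul θ (d M₁.contDiff_mC) (d cS2)]
      simp only [Dth, bdot_three, grad, M₁.pd_mC, M₁.mC_eq, smul_eq_mul, Fin.sum_univ_three, hDg, hg]
      ring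
    have hgh : bdot θ (grad h x) = -Dth θ k x := by
      simp [bdot, grad, hh, Dth, pd_neg]
    have hp : bdot θ (grad h x) - bdot θ (b x) = -(bdot θ (η x).1 / (M₁.AC x + M₁.muC x)) := by
      rw [hgh, hDk, hbθ, hDg']
      have := M₁.muC_ne x
      have := M₁.AC_add_muC_ne x
      field_simp
      ring
    have hgδ : grad δ x = grad M₁.muC x - grad M₂.muC x := funext fun i => by
      simp [grad, hδ, pd_sub i (d M₁.contDiff_muC) (d M₂.contDiff_muC)]
    have hHδ : hessVec δ x θ = hessVec M₁.muC x θ - hessVec M₂.muC x θ := by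
      funext i
      have e : pd i δ = fun y => pd i M₁.muC y - pd i M₂.muC y := funext fun y =>
        pd_sub i (Moduli.differentiableAt_of M₁.contDiff_muC y)
          (Moduli.differentiableAt_of M₂.contDiff_muC y)
      simp only [hessVec, hess, e, Pi.sub_apply,
        pd_sub _ (d (contDiff_pd M₁.contDiff_muC i)) (d (contDiff_pd M₂.contDiff_muC i)), sub_mul,
        Finset.sum_sub_distrib]
    have cA : ContDiff ℝ ∞ fun y => M₁.AC y - M₂.AC y := M₁.contDiff_AC.sub M₂.contDiff_AC
    have hDΦ : Dth θ Φ x = 2 * ((Dth θ M₁.AC x - Dth θ M₂.AC x) * (Y x).2 +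
        (M₁.AC x - M₂.AC x) * (M₂.amat θ x (Y x)).2 +
        bdot (M₂.amat θ x (Y x)).1 (grad δ x) + bdot (W x) (hessVec δ x θ)) := by
      simp only [hΦ]
      rw [Dth_mul θ (differentiableAt_const _)
        (((d cA).fun_mul (d hY.snd)).fun_add (d (contDiff_bdot cW (contDiff_grad cδ)))),
        Dth_add θ ((d cA).fun_mul (d hY.snd)) (d (contDiff_bdot cW (contDiff_grad cδ))),
        Dth_mul θ (d cA) (d hY.snd), Dth_sub θ (d M₁.contDiff_AC) (d M₂.contDiff_AC), eP,
        Dth_bdot_grad θ cW cδ x, eW, show Dth θ (fun _ : Space => (2 : ℂ)) x = 0 by simp [Dth, pd_const]]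
      ring
    have hqW : bdot (W x) (b x + grad h x) =
        bdot (W x) (fun i => (M₁.muC x)⁻¹ * (η x).1 i + 2 * g * (pd i M₁.muC x / M₁.muC x ^ 2)) := by
      have e0 := hperp x hxR
      rw [bdot_three] at e0
      simp only [bdot_three, Pi.add_apply, hbh]
      linear_combination (t x) * e0
    have hqD : bdot (M₂.amat θ x (Y x)).1 (b x + grad h x) =
        bdot (M₂.amat θ x (Y x)).1
          (fun i => (M₁.muC x)⁻¹ * (η x).1 i + 2 * g * (pd i M₁.muC x / M₁.muC x ^ 2)) := by
      have e0 := M₂.bdot_amat hθ.1 x (Y x)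
      rw [hperp x hxR, mul_zero, bdot_three] at e0
      simp only [bdot_three, Pi.add_apply, hbh]
      linear_combination (t x) * e0
    have hDf : ∀ f : Space → ℂ, Dth θ f x = bdot θ (grad f x) := fun f => rfl
    rw [hp, hqW, eW, hqD, hgδ, Dth_mul θ (d ck) (d cΦ), hDk, hDΦ, eP, hHδ, hgδ]
    simp only [hΦ, hh, hk, hgδ]
    simp only [hδ, hδl]
    simp only [hW, Moduli.amat, dot4, Prod.fst_sub, Prod.snd_sub, hDf, M₁.hessVec_mC, M₂.hessVec_mC,
      M₁.mC_eq]
    have alg := leading_alg (M₁.muC_ne x) (M₁.AC_add_muC_ne x) (M₂.muC_ne x) (M₂.AC_add_muC_ne x)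
      θ (grad M₁.muC x) (grad M₂.muC x) (hessVec M₁.muC x θ) (hessVec M₂.muC x θ) (Y x).1 (η x).1
      _ _ (Dth θ M₁.AC x) (Dth θ M₂.AC x) (η x).2 g Dg (Y x).2 _ _ hg' hDg' rfl rfl rfl rfl
    simp only [bdot_three, grad, Pi.sub_apply, Pi.smul_apply, smul_eq_mul,
      hDf, M₁.AC_eq, M₂.AC_eq] at alg ⊢
    linear_combination alg
  rw [setIntegral_congr_fun hΩ.measurableSet point]
  have iT : IntegrableOn (fun x => -2 * dot4 (η x) (M₂.amat θ x (Y x) - M₁.amat θ x (Y x))) Ω := by
    have cy1 : Continuous fun x => (Y x).1 := hY.continuous.fst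
    have cy2 : Continuous fun x => (Y x).2 := hY.continuous.snd
    have c : ∀ M : Moduli, Continuous fun x => M.amat θ x (Y x) := fun M => by
      have cm := M.contDiff_muC.continuous
      have cA := M.contDiff_AC.continuous
      have cDm : Continuous fun x => Dth θ M.muC x := (contDiff_Dth M.contDiff_muC θ).continuous
      have cDA : Continuous fun x => Dth θ M.AC x := (contDiff_Dth M.contDiff_AC θ).continuous
      have cg : Continuous fun x => grad M.muC x := (contDiff_grad M.contDiff_muC).continuous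
      have cH : Continuous fun x => hessVec M.mC x θ :=
        (contDiff_hessVec M.contDiff_mC contDiff_const).continuous
      have ci : Continuous fun x => (M.muC x)⁻¹ := cm.inv₀ M.muC_ne
      have ci2 : Continuous fun x => (2 * M.muC x)⁻¹ :=
        (continuous_const.mul cm).inv₀ fun x => mul_ne_zero two_ne_zero (M.muC_ne x)
      have cP : Continuous fun x => (M.AC x + M.muC x)⁻¹ := (cA.add cm).inv₀ M.AC_add_muC_ne
      simp only [Moduli.amat, bdot, div_eq_mul_inv]
      fun_prop
    have cd : Continuous fun x => M₂.amat θ x (Y x) - M₁.amat θ x (Y x) := (c M₂).sub (c M₁)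
    exact P136.integrableOn_of_continuous hbd (continuous_const.mul
      ((continuous_finsetSum _ fun i _ => ((continuous_apply i).comp hη.continuous.fst).mul
        ((continuous_apply i).comp cd.fst)).add (hη.continuous.snd.mul cd.snd)))
  have iZ : ∀ j, IntegrableOn (fun x => pd j (Z j) x) Ω := fun j =>
    P136.integrableOn_of_continuous hbd (contDiff_pd (cZ j) j).continuous
  rw [integral_add (integrable_finsetSum _ fun j _ => iZ j) iT, integral_finsetSum _ fun j _ => iZ j,
    Finset.sum_eq_zero fun j _ => integral_pd_zero hΩ hbd j ((cZ j).of_le (by simp)) (hZ0 j),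
    zero_add, integral_const_mul]


/-- The complex form through the bilinear density. -/
theorem cform_eq_cdens (M : Moduli) (Ω : Set Space) (u v : Space → C3) :
    M.cform Ω u v = ∫ x in Ω, cdens (M.lam x) (M.mu x) (jac u x) (jac v x) := rfl

theorem jac_expo_smul (θ : C3) (τ : ℝ) {u : Space → C3} {x : Space} (hu : DifferentiableAt ℝ u x) :
    jac (fun y => expo θ τ y • u y) x = expo θ τ x • (jac u x + (τ : ℂ) • tens (u x) θ) := by
  funext i j
  simp only [jac, tens, Pi.smul_apply, Pi.add_apply, smul_eq_mul,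
    pd_expo_mul θ τ j (differentiableAt_pi.1 hu i)]
  ring

/-- The density of the two exponential fields; only the powers `τ²`, `τ`, `1` remain. -/
theorem cdens_leading (M : Moduli) (θ : C3) (τ : ℝ) {W a b : Space → C3} {h : Space → ℂ} {x : Space}
    (hθ : bdot θ θ = 0) (hW : bdot θ (W x) = 0) (hJW : ∀ j, ∑ i, θ i * jac W x i j = 0)
    (dW : DifferentiableAt ℝ W x) (da : DifferentiableAt ℝ a x) (dh : DifferentiableAt ℝ h x)
    (db : DifferentiableAt ℝ b x) :
    cdens (M.lam x) (M.mu x) (jac (fun y => expo θ τ y • ((τ : ℂ) • W y + a y)) x)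
        (jac (fun y => expo (-θ) τ y • (((τ : ℂ) * h y) • θ + b y)) x) =
      (τ : ℂ) ^ 2 * M.secondCoef θ W a h b x +
        (τ : ℂ) * firstDens (M.lam x) (M.mu x) θ (a x) (b x) (jac W x) (jac a x) (jac b x) (grad h x) +
        cdens (M.lam x) (M.mu x) (jac a x) (jac b x) := by
  have dWc := differentiableAt_pi.1 dW
  have dac := differentiableAt_pi.1 da
  have dbc := differentiableAt_pi.1 db
  have dτh : DifferentiableAt ℝ (fun y => (τ : ℂ) * h y) x := (differentiableAt_const _).fun_mul dh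
  have e1 : jac (fun y => (τ : ℂ) • W y + a y) x = (τ : ℂ) • jac W x + jac a x := by
    funext i j
    simp only [jac, Pi.add_apply, Pi.smul_apply, smul_eq_mul]
    rw [pd_add j ((differentiableAt_const _).fun_mul (dWc i)) (dac i),
      pd_mul j (differentiableAt_const _) (dWc i), pd_const]
    ring
  have e2 : jac (fun y => ((τ : ℂ) * h y) • θ + b y) x =
      (τ : ℂ) • tens θ (grad h x) + jac b x := by
    funext i j
    simp only [jac, tens, grad, Pi.add_apply, Pi.smul_apply, smul_eq_mul]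
    rw [pd_add j (dτh.fun_mul (differentiableAt_const _)) (dbc i),
      pd_mul j dτh (differentiableAt_const _), pd_mul j (differentiableAt_const _) dh, pd_const, pd_const]
    ring
  have ee : expo θ τ x * expo (-θ) τ x = 1 := by
    have e : (τ : ℂ) * phase θ x + (τ : ℂ) * phase (-θ) x = 0 := by
      simp [phase, Finset.sum_neg_distrib]
    rw [expo, expo, ← Complex.exp_add, e, Complex.exp_zero]
  have d1 : DifferentiableAt ℝ (fun y => (τ : ℂ) • W y + a y) x := (dW.fun_const_smul _).fun_add da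
  have d2 : DifferentiableAt ℝ (fun y => ((τ : ℂ) * h y) • θ + b y) x :=
    (dτh.fun_smul (differentiableAt_const _)).fun_add db
  rw [jac_expo_smul θ τ d1, jac_expo_smul (-θ) τ d2, e1, e2, cdens_smul_smul, ee, one_mul,
    Moduli.secondCoef, ← cdens_expand _ _ (a x) (b x) (h x) (τ : ℂ) (jac a x) (jac b x) (grad h x) hθ hW hJW]
  congr 1 <;> funext i j <;>
    simp only [tens, Pi.add_apply, Pi.sub_apply, Pi.neg_apply, Pi.smul_apply, smul_eq_mul] <;> ring

end

end Vale.Agent.P136.Full
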