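import Mathlib
import Vale.Agent.P136.Full.Spec
import Vale.Agent.P136.Full.Alg.AmatCLM
import Vale.Agent.P136.Full.Form.Sol

/-!
# P136: exponential solutions with a prescribed finite expansion
-/

open MeasureTheory Set Filter Metric
open scoped Topology ContDiff

namespace Vale.Agent.P136.Full

noncomputable section

section lin

variable {E : Type*} [NormedAddCommGroup E] [NormedSpace ℂ E]

theorem lap_fun_add {f g : Space → E} (hf : ContDiff ℝ ∞ f) (hg : ContDiff ℝ ∞ g) (x : Space) :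
    lap (fun y => f y + g y) x = lap f x + lap g x := by
  simp only [lap, ← Finset.sum_add_distrib]
  refine Finset.sum_congr rfl fun i _ => ?_
  rw [show pd i (fun y => f y + g y) = fun y => pd i f y + pd i g y from funext fun y =>
      pd_add i (hf.differentiable (by simp) y) (hg.differentiable (by simp) y),
    pd_add i ((contDiff_pd hf i).differentiable (by simp) x)
      ((contDiff_pd hg i).differentiable (by simp) x)]

theorem lap_fun_smul (c : ℂ) {f : Space → E} (hf : ContDiff ℝ ∞ f) (x : Space) :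
    lap (fun y => c • f y) x = c • lap f x := by
  simp only [lap, Finset.smul_sum]
  refine Finset.sum_congr rfl fun i _ => ?_
  rw [show pd i (fun y => c • f y) = fun y => c • pd i f y from funext fun y =>
      pd_const_smul i c (hf.differentiable (by simp) y),
    pd_const_smul i c ((contDiff_pd hf i).differentiable (by simp) x)]

theorem divv_fun_add {u v : Space → C3} {x : Space} (hu : DifferentiableAt ℝ u x)
    (hv : DifferentiableAt ℝ v x) : divv (fun y => u y + v y) x = divv u x + divv v x := by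
  simp only [divv, Pi.add_apply, ← Finset.sum_add_distrib]
  exact Finset.sum_congr rfl fun i _ =>
    pd_add i (differentiableAt_pi.1 hu i) (differentiableAt_pi.1 hv i)

theorem divv_fun_smul (c : ℂ) {u : Space → C3} {x : Space} (hu : DifferentiableAt ℝ u x) :
    divv (fun y => c • u y) x = c * divv u x := by
  simp only [divv, Pi.smul_apply, Finset.mul_sum]
  exact Finset.sum_congr rfl fun i _ => pd_const_smul i c (differentiableAt_pi.1 hu i)

theorem grad_fun_add {f g : Space → ℂ} {x : Space} (hf : DifferentiableAt ℝ f x)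
    (hg : DifferentiableAt ℝ g x) : grad (fun y => f y + g y) x = grad f x + grad g x :=
  funext fun i => pd_add i hf hg

theorem grad_fun_smul (c : ℂ) {f : Space → ℂ} {x : Space} (hf : DifferentiableAt ℝ f x) :
    grad (fun y => c * f y) x = c • grad f x :=
  funext fun i => pd_const_smul i c hf

theorem hessVec_add (f : Space → ℂ) (x : Space) (v w : C3) :
    hessVec f x (v + w) = hessVec f x v + hessVec f x w := by
  funext i
  simp [hessVec, mul_add, Finset.sum_add_distrib]

theorem hessVec_smul (f : Space → ℂ) (x : Space) (c : ℂ) (v : C3) :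
    hessVec f x (c • v) = c • hessVec f x v := by
  funext i
  simp [hessVec, Finset.mul_sum, mul_left_comm]

end lin

namespace Moduli

variable (M : Moduli)

theorem conjReduced_add (θ : C3) (τ : ℝ) {U V : Space → Amp} (hU : ContDiff ℝ ∞ U)
    (hV : ContDiff ℝ ∞ V) (x : Space) :
    M.conjReduced θ τ (U + V) x = M.conjReduced θ τ U x + M.conjReduced θ τ V x := by
  have a : ∀ {W : Space → Amp}, ContDiff ℝ ∞ W → DifferentiableAt ℝ (fun y => (W y).1) x :=
    fun hW => hW.fst.differentiable (by simp) x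
  have b : ∀ {W : Space → Amp}, ContDiff ℝ ∞ W → DifferentiableAt ℝ (fun y => (W y).2) x :=
    fun hW => hW.snd.differentiable (by simp) x
  simp only [conjReduced, reduced, transport, Pi.add_apply, Prod.fst_add, Prod.snd_add,
    lap_fun_add hU.fst hV.fst, lap_fun_add hU.snd hV.snd, divv_fun_add (a hU) (a hV),
    grad_fun_add (b hU) (b hV), Dth_add θ (a hU) (a hV), Dth_add θ (b hU) (b hV), hessVec_add,
    bdot_add_right, Prod.smul_mk, Prod.mk_add_mk, Prod.mk.injEq, smul_eq_mul]
  refine ⟨?_, by ring⟩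
  funext i
  simp only [Pi.add_apply, Pi.sub_apply, Pi.smul_apply, smul_eq_mul]
  ring

theorem reduced_smul (c : ℂ) {U : Space → Amp} (hU : ContDiff ℝ ∞ U) (x : Space) :
    M.reduced (c • U) x = c • M.reduced U x := by
  have a : DifferentiableAt ℝ (fun y => (U y).1) x := hU.fst.differentiable (by simp) x
  have b : DifferentiableAt ℝ (fun y => (U y).2) x := hU.snd.differentiable (by simp) x
  have e2 : lap (fun y => c * (U y).2) x = c * lap (fun y => (U y).2) x := by
    simpa using lap_fun_smul c hU.snd x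
  simp only [reduced, Pi.smul_apply, Prod.smul_fst, Prod.smul_snd, smul_eq_mul,
    lap_fun_smul c hU.fst, e2, divv_fun_smul c a, grad_fun_smul c b, hessVec_smul, bdot_smul_right,
    Prod.smul_mk, Prod.mk.injEq]
  refine ⟨?_, by ring⟩
  funext i
  simp only [Pi.add_apply, Pi.sub_apply, Pi.smul_apply, smul_eq_mul]
  ring

theorem transport_smul (θ : C3) (c : ℂ) {U : Space → Amp} (hU : ContDiff ℝ ∞ U) (x : Space) :
    M.transport θ (c • U) x = c • M.transport θ U x := by
  have a : DifferentiableAt ℝ (fun y => (U y).1) x := hU.fst.differentiable (by simp) x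
  have b : DifferentiableAt ℝ (fun y => (U y).2) x := hU.snd.differentiable (by simp) x
  have e2 : Dth θ (fun y => c * (U y).2) x = c * Dth θ (fun y => (U y).2) x := by
    simpa using Dth_const_smul θ c b
  simp only [transport, Pi.smul_apply, Prod.smul_fst, Prod.smul_snd, smul_eq_mul,
    Dth_const_smul θ c a, e2, bdot_smul_right, Prod.smul_mk, Prod.mk.injEq]
  refine ⟨?_, by ring⟩
  funext i
  simp only [Pi.sub_apply, Pi.smul_apply, smul_eq_mul]
  ring

theorem conjReduced_smul (θ : C3) (τ : ℝ) (c : ℂ) {U : Space → Amp} (hU : ContDiff ℝ ∞ U)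
    (x : Space) : M.conjReduced θ τ (c • U) x = c • M.conjReduced θ τ U x := by
  simp only [conjReduced, M.reduced_smul c hU, M.transport_smul θ c hU, smul_add,
    smul_comm c (τ : ℂ)]

/-- The zeroth order part of the transport system. -/
def transL (θ : C3) (x : Space) : Amp →L[ℂ] Amp :=
  LinearMap.toContinuousLinearMap
    { toFun := fun Y =>
        ((M.sqC x * Y.2) • hessVec M.mC x θ + (bdot θ Y.1 * M.mC x / 2) • grad M.muC x,
          -(M.cC x * bdot θ Y.1) / 2)
      map_add' := fun Y Z => by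
        simp only [Prod.fst_add, Prod.snd_add, bdot_add_right, Prod.mk_add_mk, Prod.mk.injEq]
        refine ⟨?_, by ring⟩
        funext i
        simp only [Pi.add_apply, Pi.smul_apply, smul_eq_mul]
        ring
      map_smul' := fun c Y => by
        simp only [Prod.smul_fst, Prod.smul_snd, bdot_smul_right, smul_eq_mul, RingHom.id_apply,
          Prod.smul_mk, Prod.mk.injEq]
        refine ⟨?_, by ring⟩
        funext i
        simp only [Pi.add_apply, Pi.smul_apply, smul_eq_mul]
        ring }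

theorem contDiff_transL (θ : C3) : ContDiff ℝ ∞ fun p : ℂ × Space => M.transL θ p.2 := by
  refine contDiff_ampCLM fun Y => ContDiff.prodMk ?_ ?_
  · refine ContDiff.add ?_ ?_
    · exact ((M.contDiff_sqC.comp contDiff_snd).mul contDiff_const).smul
        ((contDiff_hessVec M.contDiff_mC contDiff_const).comp contDiff_snd)
    · simp only [div_eq_mul_inv]
      exact ((contDiff_const.mul (M.contDiff_mC.comp contDiff_snd)).mul contDiff_const).smul
        ((contDiff_grad M.contDiff_muC).comp contDiff_snd)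
  · simp only [div_eq_mul_inv]
    exact ((M.contDiff_cC.comp contDiff_snd).mul contDiff_const).neg.mul contDiff_const

theorem transport_eq (θ : C3) {Y : Space → Amp} {x : Space} (hY : DifferentiableAt ℝ Y x) :
    M.transport θ Y x = (2 : ℂ) • (Dth θ Y x - M.transL θ x (Y x)) := by
  simp only [transport, Dth_fst θ hY, Dth_snd θ hY]
  refine Prod.ext ?_ ?_
  · funext i
    simp only [transL, LinearMap.coe_toContinuousLinearMap', LinearMap.coe_mk, AddHom.coe_mk,
      Prod.smul_fst, Prod.fst_sub, Pi.add_apply, Pi.sub_apply, Pi.smul_apply, smul_eq_mul]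
    ring
  · simp only [transL, LinearMap.coe_toContinuousLinearMap', LinearMap.coe_mk, AddHom.coe_mk,
      Prod.smul_snd, Prod.snd_sub, smul_eq_mul]
    ring

end Moduli

/-- The finite expansion of the amplitude of an exponential solution. -/
def expAmp (τ : ℝ) (N : ℕ) (Y : ℕ → Space → Amp) (x : Space) : Amp :=
  ∑ j ∈ Finset.range (N + 1), ((τ : ℂ)⁻¹) ^ j • Y j x

theorem contDiff_expAmp (τ : ℝ) (N : ℕ) {Y : ℕ → Space → Amp} (hY : ∀ j, ContDiff ℝ ∞ (Y j)) :
    ContDiff ℝ ∞ (expAmp τ N Y) :=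
  ContDiff.sum fun j _ => (hY j).const_smul _

/-- The next coefficient of the expansion. -/
theorem exists_next (hT : TransportStmt) (M : Moduli) {θ : C3} (hθ : IsNull θ) (R : ℝ)
    {Y : Space → Amp} (hY : ContDiff ℝ ∞ Y) :
    ∃ Y' : Space → Amp, ContDiff ℝ ∞ Y' ∧
      ∀ x ∈ ball (0 : Space) R, M.reduced Y x + M.transport θ Y' x = 0 := by
  have hf : ContDiff ℝ ∞ fun p : ℂ × Space => -((2 : ℂ)⁻¹ • M.reduced Y p.2) :=
    (((M.contDiff_reduced hY).comp contDiff_snd).const_smul (2 : ℂ)⁻¹).neg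
  obtain ⟨⟨ρ, hρ, W, hW, hWeq⟩, -⟩ := hT (fun _ => θ) contDiff_const (fun _ => hθ)
    (fun p => M.transL θ p.2) (fun p => -((2 : ℂ)⁻¹ • M.reduced Y p.2)) (M.contDiff_transL θ) hf 0 R
  have hW' : ContDiff ℝ ∞ fun y => W ((0 : ℂ), y) := hW.comp (contDiff_const.prodMk contDiff_id)
  refine ⟨fun y => W ((0 : ℂ), y), hW', fun x hx => ?_⟩
  rw [M.transport_eq θ (hW'.differentiable (by simp) x), hWeq 0 (mem_ball_self hρ) x hx]
  module

theorem Moduli.conjReduced_expAmp (M : Moduli) {θ : C3} {τ : ℝ} (hτ : τ ≠ 0)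
    {Y : ℕ → Space → Amp} (hY : ∀ j, ContDiff ℝ ∞ (Y j)) {x : Space}
    (h0 : M.transport θ (Y 0) x = 0)
    (hs : ∀ j, M.reduced (Y j) x + M.transport θ (Y (j + 1)) x = 0) (N : ℕ) :
    M.conjReduced θ τ (expAmp τ N Y) x = ((τ : ℂ)⁻¹) ^ N • M.reduced (Y N) x := by
  induction N with
  | zero =>
    have e : expAmp τ 0 Y = Y 0 := funext fun y => by simp [expAmp]
    simp [e, Moduli.conjReduced, h0]
  | succ N ih =>
    have e : expAmp τ (N + 1) Y = expAmp τ N Y + ((τ : ℂ)⁻¹) ^ (N + 1) • Y (N + 1) :=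
      funext fun y => by simp [expAmp, Finset.sum_range_succ _ (N + 1)]
    rw [e, M.conjReduced_add θ τ (contDiff_expAmp τ N hY) (show ContDiff ℝ ∞ (((τ : ℂ)⁻¹) ^ (N + 1) • Y (N + 1)) from (hY (N + 1)).const_smul (((τ : ℂ)⁻¹) ^ (N + 1))), ih,
      M.conjReduced_smul θ τ _ (hY (N + 1)), Moduli.conjReduced, smul_add, smul_smul,
      show ((τ : ℂ)⁻¹) ^ (N + 1) * (τ : ℂ) = ((τ : ℂ)⁻¹) ^ N by
        rw [pow_succ, mul_assoc, inv_mul_cancel₀ (Complex.ofReal_ne_zero.2 hτ), mul_one],
      eq_neg_of_add_eq_zero_right (hs N)]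
    module

theorem ampSqr_smul (c : ℂ) (Y : Amp) : ampSqr (c • Y) = ‖c‖ ^ 2 * ampSqr Y := by
  simp only [ampSqr, Prod.smul_fst, Prod.smul_snd, Pi.smul_apply, smul_eq_mul, norm_mul, mul_pow,
    mul_add, Finset.mul_sum]

/-- Exponential solutions with a prescribed pair of leading coefficients. -/
theorem exists_expSol (hS : SolveStmt) (hT : TransportStmt) (hD : DispSolStmt) {Ω : Set Space}
    {R : ℝ} (hΩ : IsOpen Ω) (hR : closure Ω ⊆ ball (0 : Space) R) (M : Moduli) {θ : C3}
    (hθ : IsNull θ) {Y₀ Y₁ : Space → Amp} (h₀ : ContDiff ℝ ∞ Y₀) (h₁ : ContDiff ℝ ∞ Y₁)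
    (hT0 : ∀ x ∈ ball (0 : Space) R, M.transport θ Y₀ x = 0)
    (hT1 : ∀ x ∈ ball (0 : Space) R, M.reduced Y₀ x + M.transport θ Y₁ x = 0) (K : ℕ) :
    ∃ (N : ℕ) (Y : ℕ → Space → Amp) (C τ₀ : ℝ), 2 ≤ N ∧ Y 0 = Y₀ ∧ Y 1 = Y₁ ∧
      (∀ j, ContDiff ℝ ∞ (Y j)) ∧ 1 ≤ τ₀ ∧ ∀ τ : ℝ, τ₀ ≤ τ → ∃ w : ℕ → Space → Amp,
        (∀ k, ContDiff ℝ ∞ (w k)) ∧
        (∀ k, ∫ x in ball (0 : Space) R, sobSqr (w k) x ≤ C / τ ^ (2 * K)) ∧
        ApproxSol Ω M fun k x => expo θ τ x • M.conjDisp θ τ (expAmp τ N Y + w k) x := by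
  obtain ⟨C₀, τ₀, p, hC₀, hτ₀, hsolve⟩ := hS M θ hθ R
  let T := {Y : Space → Amp // ContDiff ℝ ∞ Y}
  let next : T → T := fun Y => ⟨(exists_next hT M hθ R Y.2).choose,
    (exists_next hT M hθ R Y.2).choose_spec.1⟩
  let Y : ℕ → Space → Amp := fun j => match j with
    | 0 => Y₀
    | n + 1 => (next^[n] ⟨Y₁, h₁⟩).1
  have hY : ∀ j, ContDiff ℝ ∞ (Y j) := fun j => match j with
    | 0 => h₀
    | n + 1 => (next^[n] ⟨Y₁, h₁⟩).2
  have hs : ∀ x ∈ ball (0 : Space) R, ∀ j, M.reduced (Y j) x + M.transport θ (Y (j + 1)) x = 0 := by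
    intro x hx j
    match j with
    | 0 => exact hT1 x hx
    | n + 1 =>
      have e : Y (n + 1 + 1) = (next (next^[n] ⟨Y₁, h₁⟩)).1 := by
        simp only [Y, Function.iterate_succ_apply']
      rw [e]
      exact (exists_next hT M hθ R (next^[n] ⟨Y₁, h₁⟩).2).choose_spec.2 x hx
  set N := p + K + 2 with hN
  obtain ⟨χ, hχ, hχs, hχ1⟩ : ∃ χ : Space → ℝ, ContDiff ℝ ∞ χ ∧ HasCompactSupport χ ∧
      ∀ x ∈ ball (0 : Space) R, χ x = 1 := by
    let b : ContDiffBump (0 : Space) := ⟨|R| + 1, |R| + 2, by positivity, by linarith⟩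
    refine ⟨b, b.contDiff, b.hasCompactSupport, fun x hx => b.one_of_mem_closedBall ?_⟩
    exact mem_closedBall.2 ((mem_ball.1 hx).le.trans ((le_abs_self R).trans (by simp [b])))
  let F₀ : Space → Amp := fun x => -((χ x : ℂ) • M.reduced (Y N) x)
  have hF₀ : ContDiff ℝ ∞ F₀ :=
    ((Complex.ofRealCLM.contDiff.comp hχ).smul (M.contDiff_reduced (hY N))).neg
  have hF₀s : HasCompactSupport F₀ := by
    refine hχs.mono fun x hx => ?_
    intro h
    exact hx (by simp [F₀, h])
  refine ⟨N, Y, C₀ * ∫ x, ampSqr (F₀ x), τ₀, by omega, rfl, rfl, hY, hτ₀, fun τ hτ => ?_⟩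
  have hτ1 : 1 ≤ τ := hτ₀.trans hτ
  have hτ0 : τ ≠ 0 := by linarith
  set c : ℂ := ((τ : ℂ)⁻¹) ^ N with hc
  obtain ⟨w, hw, hwb, hwc, hwr⟩ := hsolve τ hτ (fun _ _ => 0) (c • F₀)
    (fun _ => ⟨contDiff_const, HasCompactSupport.zero⟩) (hF₀.const_smul c) hF₀s.smul_left
  refine ⟨w, hw, fun k => ?_, ?_⟩
  · refine (hwb k).trans ?_
    have e1 : ∫ x, ampSqr ((c • F₀) x) = (τ ^ (2 * N))⁻¹ * ∫ x, ampSqr (F₀ x) := by
      rw [← integral_const_mul]
      refine integral_congr_ae (Eventually.of_forall fun x => ?_)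
      simp only [Pi.smul_apply, ampSqr_smul, hc, norm_pow, norm_inv, Complex.norm_real,
        Real.norm_eq_abs, abs_of_pos (show (0 : ℝ) < τ by linarith)]
      rw [← pow_mul, inv_pow, mul_comm N 2]
    simp only [Pi.zero_apply, norm_zero, Finset.sum_const_zero, e1, ne_eq, OfNat.ofNat_ne_zero,
      not_false_eq_true, zero_pow, integral_zero, add_zero]
    have h0 : 0 ≤ C₀ * ∫ x, ampSqr (F₀ x) :=
      mul_nonneg hC₀.le (integral_nonneg fun x => ampSqr_nonneg' _)
    calc C₀ * τ ^ p * ((τ ^ (2 * N))⁻¹ * ∫ x, ampSqr (F₀ x))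
        = (C₀ * ∫ x, ampSqr (F₀ x)) * (τ ^ p / τ ^ (2 * N)) := by ring
      _ ≤ (C₀ * ∫ x, ampSqr (F₀ x)) * (1 / τ ^ (2 * K)) := by
          refine mul_le_mul_of_nonneg_left ?_ h0
          rw [div_le_div_iff₀ (by positivity) (by positivity), one_mul, ← pow_add]
          exact pow_le_pow_right₀ hτ1 (by omega)
      _ = _ := by ring
  · have hU : ∀ k, ContDiff ℝ ∞ (expAmp τ N Y + w k) := fun k => (contDiff_expAmp τ N hY).add (hw k)
    have hb : Bornology.IsBounded Ω := isBounded_ball.subset (subset_closure.trans hR)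
    have key : ∀ k, ∀ x ∈ Ω, M.conjReduced θ τ (expAmp τ N Y + w k) x - ((0 : C3), (0 : ℂ)) =
          M.conjReduced θ τ (w k) x - ((∑ i : Fin 3, pd i (fun _ : Space => (0 : C3)) x) +
            ((c • F₀) x).1, ((c • F₀) x).2) := by
        intro k x hx
        have hxb : x ∈ ball (0 : Space) R := hR (subset_closure hx)
        have hcx : ((c • F₀) x : Amp) = -(c • M.reduced (Y N) x) := by simp [F₀, hχ1 x hxb]
        rw [M.conjReduced_add θ τ (contDiff_expAmp τ N hY) (hw k),
          M.conjReduced_expAmp hτ0 hY (hT0 x hxb) (hs x hxb) N]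
        simp only [pd_const, Finset.sum_const_zero, zero_add, Prod.mk.eta, hcx, Prod.mk_zero_zero,
          sub_zero, sub_neg_eq_add]
        exact add_comm _ _
    have hL : Tendsto (fun k => ∫ x in Ω, ampSqr (M.conjReduced θ τ (expAmp τ N Y + w k) x -
        ((0 : C3), (0 : ℂ)))) atTop (𝓝 0) := by
      refine squeeze_zero (fun k => setIntegral_nonneg hΩ.measurableSet fun x _ => ampSqr_nonneg' _)
        (fun k => ?_) hwr
      rw [setIntegral_congr_fun hΩ.measurableSet fun x hx => congrArg ampSqr (key k x hx)]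
      refine setIntegral_mono_set ?_ (Eventually.of_forall fun x => ampSqr_nonneg' _)
        (subset_closure.trans hR).eventuallyLE
      refine P136.integrableOn_of_continuous isBounded_ball (continuous_ampSqr.comp ?_)
      simp only [pd_const, Finset.sum_const_zero, zero_add]
      exact (M.contDiff_conjReduced θ τ (hw k)).continuous.sub (hF₀.const_smul c).continuous
    obtain ⟨h1, h2, h3⟩ := hD Ω M θ τ R (fun k => expAmp τ N Y + w k) (fun _ => 0) hΩ hθ hR hU
      continuous_const (by simpa only [add_sub_add_left_eq_sub] using hwc) hL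
    exact ⟨h1, h2, fun φ hφ hφ0 => by simpa [bdot] using h3 φ hφ hφ0⟩

end

end Vale.Agent.P136.Full
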