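import Mathlib
import Vale.Agent.P136.Full.Orth.Series
import Vale.Agent.P136.Full.Orth.Leading

/-!
# P136: the displacement of a finite expansion, and bounds for the remainders
-/

open MeasureTheory Set Filter Metric
open scoped Topology ContDiff

namespace Vale.Agent.P136.Full

noncomputable section

theorem jac_add {u v : Space → C3} {x : Space} (hu : DifferentiableAt ℝ u x)
    (hv : DifferentiableAt ℝ v x) : jac (fun y => u y + v y) x = jac u x + jac v x := by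
  funext i j
  simp only [jac, Pi.add_apply, pd_add j (differentiableAt_pi.1 hu i) (differentiableAt_pi.1 hv i)]

theorem jac_const_smul (c : ℂ) {u : Space → C3} {x : Space} (hu : DifferentiableAt ℝ u x) :
    jac (fun y => c • u y) x = c • jac u x := by
  funext i j
  simpa [jac] using pd_const_smul j c (differentiableAt_pi.1 hu i)

theorem jac_sum {ι : Type*} (s : Finset ι) {u : ι → Space → C3} {x : Space}
    (hu : ∀ k ∈ s, DifferentiableAt ℝ (u k) x) :
    jac (fun y => ∑ k ∈ s, u k y) x = ∑ k ∈ s, jac (u k) x := by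
  funext i j
  simp only [jac, Finset.sum_apply]
  exact pd_sum s j fun k hk => differentiableAt_pi.1 (hu k hk) i

theorem jac_congr {u v : Space → C3} {x : Space} (h : u =ᶠ[𝓝 x] v) : jac u x = jac v x := by
  funext i j
  exact pd_congr (h.mono fun y hy => congrFun hy i) j

theorem jac_smul_vec {f : Space → ℂ} (θ : C3) {x : Space} (hf : DifferentiableAt ℝ f x) :
    jac (fun y => f y • θ) x = tens θ (grad f x) := by
  funext i j
  simp only [jac, tens, grad, Pi.smul_apply, smul_eq_mul]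
  rw [pd_mul j hf (differentiableAt_const _), pd_const]
  ring

namespace Moduli

variable (M : Moduli)

theorem conjDisp_add (θ : C3) (τ : ℝ) {U U' : Space → Amp} (hU : ContDiff ℝ ∞ U)
    (hU' : ContDiff ℝ ∞ U') (x : Space) :
    M.conjDisp θ τ (U + U') x = M.conjDisp θ τ U x + M.conjDisp θ τ U' x := by
  ext i
  have hs : pd i (fun y => (U y + U' y).2) x = pd i (fun y => (U y).2) x + pd i (fun y => (U' y).2) x :=
    pd_add i (hU.snd.differentiable (by simp) x) (hU'.snd.differentiable (by simp) x)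
  simp only [Prod.snd_add] at hs
  simp only [conjDisp_apply, Pi.add_apply, hs, Prod.fst_add, Prod.snd_add]
  ring

theorem conjDisp_smul (θ : C3) (τ : ℝ) (c : ℂ) {U : Space → Amp} (hU : ContDiff ℝ ∞ U) (x : Space) :
    M.conjDisp θ τ (c • U) x = c • M.conjDisp θ τ U x := by
  ext i
  have hs : pd i (fun y => c • (U y).2) x = c • pd i (fun y => (U y).2) x :=
    pd_const_smul i c (hU.snd.differentiable (by simp) x)
  simp only [smul_eq_mul] at hs
  simp only [conjDisp_apply, Pi.smul_apply, hs, Prod.smul_fst, Prod.smul_snd, smul_eq_mul]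
  ring

/-- The part of the displacement of an amplitude which is multiplied by `τ`. -/
def gpart (θ : C3) (Y : Space → Amp) (x : Space) : C3 := (M.mC x * (Y x).2) • θ

theorem contDiff_gpart (θ : C3) {Y : Space → Amp} (hY : ContDiff ℝ ∞ Y) :
    ContDiff ℝ ∞ (M.gpart θ Y) :=
  (M.contDiff_mC.mul hY.snd).smul contDiff_const

theorem conjDisp_eq (θ : C3) (τ : ℝ) (Y : Space → Amp) (x : Space) :
    M.conjDisp θ τ Y x = M.disp Y x + (τ : ℂ) • M.gpart θ Y x := by
  simp only [conjDisp, gpart, smul_smul, mul_assoc]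

theorem conjDisp_expAmp (θ : C3) (τ : ℝ) {Y : ℕ → Space → Amp} (hY : ∀ j, ContDiff ℝ ∞ (Y j))
    (N : ℕ) (x : Space) :
    M.conjDisp θ τ (expAmp τ N Y) x = ∑ j ∈ Finset.range (N + 1),
      ((τ : ℂ)⁻¹) ^ j • (M.disp (Y j) x + (τ : ℂ) • M.gpart θ (Y j) x) := by
  induction N with
  | zero =>
    have e : expAmp τ 0 Y = Y 0 := funext fun y => by simp [expAmp]
    simp [e, M.conjDisp_eq]
  | succ N ih =>
    have hc : ContDiff ℝ ∞ (((τ : ℂ)⁻¹) ^ (N + 1) • Y (N + 1)) :=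
      (hY (N + 1)).const_smul (((τ : ℂ)⁻¹) ^ (N + 1))
    have e : expAmp τ (N + 1) Y = expAmp τ N Y + ((τ : ℂ)⁻¹) ^ (N + 1) • Y (N + 1) :=
      funext fun y => by simp [expAmp, Finset.sum_range_succ _ (N + 1)]
    rw [e, M.conjDisp_add θ τ (contDiff_expAmp τ N hY) hc, ih, M.conjDisp_smul θ τ _ (hY _),
      M.conjDisp_eq, ← Finset.sum_range_succ (fun j => ((τ : ℂ)⁻¹) ^ j •
        (M.disp (Y j) x + (τ : ℂ) • M.gpart θ (Y j) x)) (N + 1)]

/-- The tail of the displacement of an expansion, with `q = 1 / τ`. -/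
def tail (θ : C3) (q : ℂ) (m : ℕ) (Y : ℕ → Space → Amp) (x : Space) : C3 :=
  M.disp (Y 2) x + ∑ i ∈ Finset.range m,
    (q ^ (i + 1) • M.disp (Y (i + 3)) x + q ^ i • M.gpart θ (Y (i + 3)) x)

theorem contDiff_tail (θ : C3) (q : ℂ) (m : ℕ) {Y : ℕ → Space → Amp}
    (hY : ∀ j, ContDiff ℝ ∞ (Y j)) : ContDiff ℝ ∞ (M.tail θ q m Y) :=
  (M.contDiff_disp (hY 2)).add (ContDiff.sum fun i _ =>
    ((M.contDiff_disp (hY (i + 3))).const_smul _).add ((M.contDiff_gpart θ (hY (i + 3))).const_smul _))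

theorem conjDisp_expAmp_split (θ : C3) {τ : ℝ} (hτ : τ ≠ 0) {Y : ℕ → Space → Amp}
    (hY : ∀ j, ContDiff ℝ ∞ (Y j)) (m : ℕ) (x : Space) :
    M.conjDisp θ τ (expAmp τ (m + 2) Y) x =
      (τ : ℂ) • M.gpart θ (Y 0) x + (M.disp (Y 0) x + M.gpart θ (Y 1) x) +
        (τ : ℂ)⁻¹ • (M.disp (Y 1) x + M.gpart θ (Y 2) x) +
        ((τ : ℂ)⁻¹) ^ 2 • M.tail θ (τ : ℂ)⁻¹ m Y x := by
  have hc : (τ : ℂ) ≠ 0 := Complex.ofReal_ne_zero.2 hτ
  rw [M.conjDisp_expAmp θ τ hY, Finset.sum_range_succ', Finset.sum_range_succ', Finset.sum_range_succ']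
  have e : ∀ i : ℕ, ((τ : ℂ)⁻¹) ^ (i + 1 + 1 + 1) •
      (M.disp (Y (i + 1 + 1 + 1)) x + (τ : ℂ) • M.gpart θ (Y (i + 1 + 1 + 1)) x) =
      ((τ : ℂ)⁻¹) ^ 2 • (((τ : ℂ)⁻¹) ^ (i + 1) • M.disp (Y (i + 3)) x +
        ((τ : ℂ)⁻¹) ^ i • M.gpart θ (Y (i + 3)) x) := by
    intro i
    simp only [show i + 1 + 1 + 1 = i + 3 from rfl, smul_add, smul_smul]
    congr 2
    · ring
    · rw [show i + 3 = i + 2 + 1 from rfl, pow_succ, mul_assoc, inv_mul_cancel₀ hc, mul_one]
      ring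
  simp only [e]
  rw [← Finset.smul_sum]
  simp only [tail, zero_add, pow_zero, pow_one, one_smul, show 1 + 1 = 2 from rfl, smul_add, smul_smul]
  rw [show (τ : ℂ)⁻¹ * (τ : ℂ) = 1 from inv_mul_cancel₀ hc,
    show ((τ : ℂ)⁻¹) ^ 2 * (τ : ℂ) = (τ : ℂ)⁻¹ by rw [pow_two, mul_assoc, inv_mul_cancel₀ hc, mul_one]]
  module

theorem exists_tail_bound (θ : C3) (m : ℕ) {Y : ℕ → Space → Amp} (hY : ∀ j, ContDiff ℝ ∞ (Y j))
    {K : Set Space} (hK : IsCompact K) :
    ∃ B : ℝ, 0 ≤ B ∧ ∀ q : ℂ, ‖q‖ ≤ 1 → ∀ x ∈ K, ‖M.tail θ q m Y x‖ ≤ B ∧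
      ‖jac (M.tail θ q m Y) x‖ ≤ B := by
  have cd : ∀ j, ContDiff ℝ ∞ (M.disp (Y j)) := fun j => M.contDiff_disp (hY j)
  have cg : ∀ j, ContDiff ℝ ∞ (M.gpart θ (Y j)) := fun j => M.contDiff_gpart θ (hY j)
  have cj : ∀ {u : Space → C3}, ContDiff ℝ ∞ u → Continuous fun x => ‖jac u x‖ := fun h =>
    (continuous_jac (h.of_le (by simp))).norm
  set F : Space → ℝ := fun x => ‖M.disp (Y 2) x‖ + ‖jac (M.disp (Y 2)) x‖ +
    ∑ i ∈ Finset.range m, (‖M.disp (Y (i + 3)) x‖ + ‖M.gpart θ (Y (i + 3)) x‖ +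
      (‖jac (M.disp (Y (i + 3))) x‖ + ‖jac (M.gpart θ (Y (i + 3))) x‖)) with hF
  have cF : Continuous F := ((cd 2).continuous.norm.add (cj (cd 2))).add
    (continuous_finsetSum _ fun i _ => ((cd _).continuous.norm.add (cg _).continuous.norm).add
      ((cj (cd _)).add (cj (cg _))))
  obtain ⟨B, hB⟩ := hK.exists_bound_of_continuousOn cF.continuousOn
  refine ⟨max B 0, le_max_right _ _, fun q hq x hx => ?_⟩
  have hFB : F x ≤ max B 0 := ((le_abs_self _).trans (hB x hx)).trans (le_max_left _ _)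
  have hp : ∀ (n : ℕ) {E : Type} [NormedAddCommGroup E] [NormedSpace ℂ E] (v : E), ‖q ^ n • v‖ ≤ ‖v‖ :=
    fun n E _ _ v => by
      rw [norm_smul, norm_pow]
      exact mul_le_of_le_one_left (norm_nonneg v) (pow_le_one₀ (norm_nonneg q) hq)
  constructor
  · refine le_trans ?_ hFB
    unfold tail
    simp only [hF, Finset.sum_add_distrib]
    refine (norm_add_le _ _).trans ?_
    have s : ∀ f : ℕ → Space → C3, (0 : ℝ) ≤ ∑ i ∈ Finset.range m, ‖jac (f i) x‖ := fun f =>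
      Finset.sum_nonneg fun _ _ => norm_nonneg _
    have := norm_add_le_of_le ((norm_sum_le (Finset.range m) _).trans
        (Finset.sum_le_sum fun i _ => hp (i + 1) (M.disp (Y (i + 3)) x)))
      ((norm_sum_le (Finset.range m) _).trans
        (Finset.sum_le_sum fun i _ => hp i (M.gpart θ (Y (i + 3)) x)))
    linarith [norm_nonneg (jac (M.disp (Y 2)) x), s fun i => M.disp (Y (i + 3)),
      s fun i => M.gpart θ (Y (i + 3))]
  · refine le_trans ?_ hFB
    have dd : ∀ {u : Space → C3}, ContDiff ℝ ∞ u → DifferentiableAt ℝ u x := fun h =>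
      h.differentiable (by simp) x
    have e : jac (M.tail θ q m Y) x = jac (M.disp (Y 2)) x + ∑ i ∈ Finset.range m,
        (q ^ (i + 1) • jac (M.disp (Y (i + 3))) x + q ^ i • jac (M.gpart θ (Y (i + 3))) x) := by
      unfold tail
      rw [jac_add (dd (cd 2)) (dd (ContDiff.sum fun i _ =>
          ((cd (i + 3)).const_smul (q ^ (i + 1))).add ((cg (i + 3)).const_smul (q ^ i)))),
        jac_sum _ fun i _ => dd (((cd (i + 3)).const_smul (q ^ (i + 1))).add ((cg (i + 3)).const_smul (q ^ i)))]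
      refine congrArg _ (Finset.sum_congr rfl fun i _ => ?_)
      rw [jac_add (dd ((cd (i + 3)).const_smul (q ^ (i + 1)))) (dd ((cg (i + 3)).const_smul (q ^ i))),
        jac_const_smul _ (dd (cd _)), jac_const_smul _ (dd (cg _))]
    rw [e]
    simp only [hF, Finset.sum_add_distrib]
    refine (norm_add_le _ _).trans ?_
    have := norm_add_le_of_le ((norm_sum_le (Finset.range m) _).trans
        (Finset.sum_le_sum fun i _ => hp (i + 1) (jac (M.disp (Y (i + 3))) x)))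
      ((norm_sum_le (Finset.range m) _).trans
        (Finset.sum_le_sum fun i _ => hp i (jac (M.gpart θ (Y (i + 3))) x)))
    have s : ∀ f : ℕ → Space → C3, (0 : ℝ) ≤ ∑ i ∈ Finset.range m, ‖f i x‖ := fun f =>
      Finset.sum_nonneg fun _ _ => norm_nonneg _
    linarith [norm_nonneg (M.disp (Y 2) x), s fun i => M.disp (Y (i + 3)),
      s fun i => M.gpart θ (Y (i + 3))]

/-- The conjugated displacement is controlled by the amplitude norm, with one power of `τ`. -/
theorem exists_conjDisp_bound (θ : C3) {K : Set Space} (hK : IsCompact K) :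
    ∃ C : ℝ, 0 ≤ C ∧ ∀ τ : ℝ, 1 ≤ τ → ∀ w : Space → Amp, ContDiff ℝ ∞ w → ∀ x ∈ K,
      ‖M.conjDisp θ τ w x‖ ≤ C * τ * √(sobSqr w x) ∧
        ‖jac (M.conjDisp θ τ w) x‖ ≤ C * τ * √(sobSqr w x) := by
  have cn := M.contDiff_nC
  have cm := M.contDiff_mC
  set S : Fin 3 → Fin 3 → Space → ℝ := fun i j x => ‖pd j M.nC x‖ + ‖M.nC x‖ + ‖pd j M.mC x‖ +
    ‖M.mC x‖ + ‖θ i‖ * (‖pd j M.mC x‖ + ‖M.mC x‖) + ‖pd j (pd i M.mC) x‖ + ‖pd i M.mC x‖ with hS
  have cS : ∀ i j, Continuous (S i j) := fun i j =>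
    ((((((contDiff_pd cn j).continuous.norm.add cn.continuous.norm).add
      (contDiff_pd cm j).continuous.norm).add cm.continuous.norm).add
      (continuous_const.mul ((contDiff_pd cm j).continuous.norm.add cm.continuous.norm))).add
      (contDiff_pd (contDiff_pd cm i) j).continuous.norm).add (contDiff_pd cm i).continuous.norm
  obtain ⟨C, hC⟩ := hK.exists_bound_of_continuousOn
    (continuous_finsetSum Finset.univ fun i _ => continuous_finsetSum Finset.univ fun j _ =>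
      cS i j).continuousOn
  refine ⟨max C 0, le_max_right _ _, fun τ hτ w hw x hx => ?_⟩
  have hr := Real.sqrt_nonneg (sobSqr w x)
  have hS0 : ∀ i j, 0 ≤ S i j x := fun i j => by simp only [hS]; positivity
  have hSC : ∀ i j, S i j x ≤ max C 0 := fun i j =>
    ((Finset.single_le_sum (fun j _ => hS0 i j) (Finset.mem_univ j)).trans
      (Finset.single_le_sum (f := fun i => ∑ j, S i j x)
        (fun i _ => Finset.sum_nonneg fun j _ => hS0 i j) (Finset.mem_univ i))).trans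
      (((le_abs_self _).trans (hC x hx)).trans (le_max_left _ _))
  have hnτ : ∀ i : Fin 3, ∀ z : ℂ, ‖(τ : ℂ) * θ i * z‖ = τ * (‖θ i‖ * ‖z‖) := fun i z => by
    rw [norm_mul, norm_mul, Complex.norm_real, Real.norm_eq_abs, abs_of_nonneg (by linarith), mul_assoc]
  have hn : ∀ (p q : ℂ) (s : ℝ), ‖q‖ ≤ s → ‖p * q‖ ≤ ‖p‖ * s := fun p q s h => by
    rw [norm_mul]; exact mul_le_mul_of_nonneg_left h (norm_nonneg _)
  constructor
  · refine (pi_norm_le_iff_of_nonneg (by positivity)).2 fun i => ?_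
    obtain ⟨l1, l2, -, l4, -⟩ := le_sqrt_sobSqr hw x i i
    rw [conjDisp_apply]
    refine (norm_add₃_le.trans (add_le_add (add_le_add (hn _ _ _ l1) (hn _ _ _ l4))
      (hn _ _ _ l2))).trans ?_
    have h3 : ‖(τ : ℂ) * θ i * M.mC x - pd i M.mC x‖ ≤ τ * (‖θ i‖ * ‖M.mC x‖ + ‖pd i M.mC x‖) := by
      refine (norm_sub_le _ _).trans ?_
      rw [hnτ, mul_add]
      exact add_le_add le_rfl (le_mul_of_one_le_left (norm_nonneg _) hτ)
    have h4 : ‖M.nC x‖ + ‖M.mC x‖ + ‖(τ : ℂ) * θ i * M.mC x - pd i M.mC x‖ ≤ max C 0 * τ := by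
      have h5 : ‖M.nC x‖ + ‖M.mC x‖ + (‖θ i‖ * ‖M.mC x‖ + ‖pd i M.mC x‖) ≤ S i i x := by
        simp only [hS]
        nlinarith [norm_nonneg (pd i M.nC x), norm_nonneg (pd i M.mC x),
          norm_nonneg (pd i (pd i M.mC) x), mul_nonneg (norm_nonneg (θ i)) (norm_nonneg (pd i M.mC x))]
      have h6 := mul_le_mul_of_nonneg_right (h5.trans (hSC i i)) (show (0 : ℝ) ≤ τ by linarith)
      nlinarith [norm_nonneg (M.nC x), norm_nonneg (M.mC x)]
    have h7 := mul_le_mul_of_nonneg_right h4 hr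
    linarith
  · refine (pi_norm_le_iff_of_nonneg (by positivity)).2 fun i =>
      (pi_norm_le_iff_of_nonneg (by positivity)).2 fun j => ?_
    obtain ⟨l1, l2, l3, l4, l5⟩ := le_sqrt_sobSqr hw x i j
    have l6 := (le_sqrt_sobSqr hw x i i).2.2.2.1
    have d : ∀ {f : Space → ℂ}, ContDiff ℝ ∞ f → DifferentiableAt ℝ f x := fun h =>
      Moduli.differentiableAt_of h x
    have cw : ContDiff ℝ ∞ fun y => (w y).1 i := contDiff_pi.1 hw.fst i
    have cg : ContDiff ℝ ∞ fun y => (w y).2 := hw.snd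
    have cgi := contDiff_pd cg i
    have cc : ContDiff ℝ ∞ fun y => (τ : ℂ) * θ i * M.mC y - pd i M.mC y :=
      (contDiff_const.mul cm).sub (contDiff_pd cm i)
    have e : jac (M.conjDisp θ τ w) x i j =
        pd j M.nC x * (w x).1 i + M.nC x * pd j (fun y => (w y).1 i) x +
          (pd j M.mC x * pd i (fun y => (w y).2) x + M.mC x * pd j (pd i fun y => (w y).2) x) +
          (((τ : ℂ) * θ i * pd j M.mC x - pd j (pd i M.mC) x) * (w x).2 +
            ((τ : ℂ) * θ i * M.mC x - pd i M.mC x) * pd j (fun y => (w y).2) x) := by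
      unfold jac
      simp only [conjDisp_apply]
      rw [pd_add j (((d cn).fun_mul (d cw)).fun_add ((d cm).fun_mul (d cgi))) ((d cc).fun_mul (d cg)),
        pd_add j ((d cn).fun_mul (d cw)) ((d cm).fun_mul (d cgi)), pd_mul j (d cn) (d cw),
        pd_mul j (d cm) (d cgi), pd_mul j (d cc) (d cg),
        pd_sub j ((differentiableAt_const _).fun_mul (d cm)) (d (contDiff_pd cm i)),
        pd_mul j (differentiableAt_const _) (d cm), pd_const, zero_mul, zero_add]
    rw [e]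
    refine (norm_add₃_le.trans (add_le_add (add_le_add
      (norm_add_le_of_le (hn _ _ _ l1) (hn _ _ _ l3)) (norm_add_le_of_le (hn _ _ _ l6) (hn _ _ _ l5)))
      (norm_add_le_of_le (hn _ _ _ l2) (hn _ _ _ l4)))).trans ?_
    have h3 : ‖(τ : ℂ) * θ i * pd j M.mC x - pd j (pd i M.mC) x‖ +
        ‖(τ : ℂ) * θ i * M.mC x - pd i M.mC x‖ ≤
        τ * (‖θ i‖ * (‖pd j M.mC x‖ + ‖M.mC x‖) + ‖pd j (pd i M.mC) x‖ + ‖pd i M.mC x‖) := by
      refine (add_le_add (norm_sub_le _ _) (norm_sub_le _ _)).trans ?_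
      rw [hnτ, hnτ]
      nlinarith [norm_nonneg (pd j (pd i M.mC) x), norm_nonneg (pd i M.mC x)]
    have h4 : ‖pd j M.nC x‖ + ‖M.nC x‖ + (‖pd j M.mC x‖ + ‖M.mC x‖) ≤
        τ * (‖pd j M.nC x‖ + ‖M.nC x‖ + ‖pd j M.mC x‖ + ‖M.mC x‖) := by
      nlinarith [norm_nonneg (pd j M.nC x), norm_nonneg (M.nC x), norm_nonneg (pd j M.mC x),
        norm_nonneg (M.mC x)]
    have h5 := mul_le_mul_of_nonneg_left (hSC i j) (show (0 : ℝ) ≤ τ by linarith)
    simp only [hS] at h5
    have h7 := mul_le_mul_of_nonneg_right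
      (show ‖pd j M.nC x‖ + ‖M.nC x‖ + (‖pd j M.mC x‖ + ‖M.mC x‖) +
          (‖(τ : ℂ) * θ i * pd j M.mC x - pd j (pd i M.mC) x‖ +
            ‖(τ : ℂ) * θ i * M.mC x - pd i M.mC x‖) ≤ max C 0 * τ by linarith) hr
    linarith

end Moduli

end

end Vale.Agent.P136.Full
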