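import Mathlib
import Vale.Agent.P136.Full.Orth.LeadingAlg

/-!
# P136: pointwise bound for the bilinear density of two exponential fields with remainders
-/

namespace Vale.Agent.P136.Full

noncomputable section

variable (L M : ℝ)

theorem cdens_add_left (G G' H : Fin 3 → Fin 3 → ℂ) :
    cdens L M (G + G') H = cdens L M G H + cdens L M G' H := by
  simp only [cdens, Pi.add_apply, Fin.sum_univ_three]; ring

theorem cdens_add_right (G H H' : Fin 3 → Fin 3 → ℂ) :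
    cdens L M G (H + H') = cdens L M G H + cdens L M G H' := by
  simp only [cdens, Pi.add_apply, Fin.sum_univ_three]; ring

theorem cdens_sub_right (G H H' : Fin 3 → Fin 3 → ℂ) :
    cdens L M G (H - H') = cdens L M G H - cdens L M G H' := by
  simp only [cdens, Pi.sub_apply, Fin.sum_univ_three]; ring

theorem cdens_neg_right (G H : Fin 3 → Fin 3 → ℂ) : cdens L M G (-H) = -cdens L M G H := by
  simp only [cdens, Pi.neg_apply, Fin.sum_univ_three]; ring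

theorem cdens_smul_left (c : ℂ) (G H : Fin 3 → Fin 3 → ℂ) :
    cdens L M (c • G) H = c * cdens L M G H := by
  simp only [cdens, Pi.smul_apply, smul_eq_mul, Fin.sum_univ_three]; ring

theorem cdens_smul_right (c : ℂ) (G H : Fin 3 → Fin 3 → ℂ) :
    cdens L M G (c • H) = c * cdens L M G H := by
  simp only [cdens, Pi.smul_apply, smul_eq_mul, Fin.sum_univ_three]; ring

theorem norm_entry_le (G : Fin 3 → Fin 3 → ℂ) (i j : Fin 3) : ‖G i j‖ ≤ ‖G‖ :=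
  (norm_le_pi_norm (G i) j).trans (norm_le_pi_norm G i)

theorem norm_cdens_le (G H : Fin 3 → Fin 3 → ℂ) :
    ‖cdens L M G H‖ ≤ (9 * |L| + 18 * |M|) * ‖G‖ * ‖H‖ := by
  have tr : ∀ K : Fin 3 → Fin 3 → ℂ, ‖∑ i, K i i‖ ≤ 3 * ‖K‖ := fun K =>
    (norm_sum_le _ _).trans ((Finset.sum_le_sum fun i _ => norm_entry_le K i i).trans_eq (by simp))
  have sym : ∀ (K : Fin 3 → Fin 3 → ℂ) i j, ‖(K i j + K j i) / 2‖ ≤ ‖K‖ := fun K i j => by
    rw [norm_div, Complex.norm_ofNat, div_le_iff₀ two_pos]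
    linarith [norm_add_le (K i j) (K j i), norm_entry_le K i j, norm_entry_le K j i]
  have h1 : ‖(∑ i, G i i) * ∑ i, H i i‖ ≤ 9 * (‖G‖ * ‖H‖) := by
    rw [norm_mul]
    exact (mul_le_mul (tr G) (tr H) (norm_nonneg _) (by positivity)).trans_eq (by ring)
  have h2 : ‖∑ i, ∑ j, ((G i j + G j i) / 2) * ((H i j + H j i) / 2)‖ ≤ 9 * (‖G‖ * ‖H‖) := by
    refine (norm_sum_le _ _).trans ((Finset.sum_le_sum fun i _ => (norm_sum_le _ _).trans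
      (Finset.sum_le_sum fun j _ => ?_)).trans_eq (b := ∑ _i : Fin 3, ∑ _j : Fin 3, ‖G‖ * ‖H‖) (by simp; ring))
    rw [norm_mul]
    exact mul_le_mul (sym G i j) (sym H i j) (norm_nonneg _) (norm_nonneg _)
  unfold cdens
  refine (norm_add_le _ _).trans ?_
  rw [norm_mul, norm_mul (2 * (M : ℂ)), norm_mul (2 : ℂ), Complex.norm_ofNat, Complex.norm_real,
    Complex.norm_real, Real.norm_eq_abs, Real.norm_eq_abs]
  nlinarith [mul_le_mul_of_nonneg_left h1 (abs_nonneg L), mul_le_mul_of_nonneg_left h2 (abs_nonneg M)]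

theorem norm_tens_le (a θ : C3) : ‖tens a θ‖ ≤ ‖a‖ * ‖θ‖ := by
  refine (pi_norm_le_iff_of_nonneg (by positivity)).2 fun i =>
    (pi_norm_le_iff_of_nonneg (by positivity)).2 fun j => ?_
  rw [tens, norm_mul]
  exact mul_le_mul (norm_le_pi_norm a i) (norm_le_pi_norm θ j) (norm_nonneg _) (norm_nonneg _)

variable {L M}

/-- The remainders change the density by `O(τ)` as soon as they are `O(1/τ)`. -/
theorem cdens_rem_le {θ W a b hv r r' : C3} {h : ℂ} {JW : Fin 3 → Fin 3 → ℂ}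
    (Ja Jb J J' : Fin 3 → Fin 3 → ℂ) {τ B σ : ℝ} (hτ : 1 ≤ τ) (hσ : 0 ≤ σ) (hB : 1 ≤ B)
    (hθ : bdot θ θ = 0) (hW : bdot θ W = 0) (hJW : ∀ j, ∑ i, θ i * JW i j = 0)
    (bθ : ‖θ‖ ≤ B) (bh : ‖h‖ ≤ B) (bW : ‖W‖ ≤ B) (ba : ‖a‖ ≤ B) (bb : ‖b‖ ≤ B) (bhv : ‖hv‖ ≤ B)
    (bJW : ‖JW‖ ≤ B) (bJa : ‖Ja‖ ≤ B) (bJb : ‖Jb‖ ≤ B) (br : ‖r‖ ≤ B / τ + σ)
    (bJ : ‖J‖ ≤ B / τ + σ) (br' : ‖r'‖ ≤ B / τ + σ) (bJ' : ‖J'‖ ≤ B / τ + σ) :
    ‖cdens L M ((τ : ℂ) ^ 2 • tens W θ + (τ : ℂ) • (JW + tens a θ) + Ja + (J + (τ : ℂ) • tens r θ))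
        (-((τ : ℂ) ^ 2 * h) • tens θ θ + (τ : ℂ) • (tens θ hv - tens b θ) + Jb +
          (J' - (τ : ℂ) • tens r' θ)) -
      (τ : ℂ) ^ 2 * secondDens L M θ W a b h JW Ja Jb hv‖ ≤
      20 * (9 * |L| + 18 * |M|) * (4 * B ^ 3) ^ 2 * (τ + τ ^ 3 * σ ^ 2) := by
  have hexp := cdens_expand L M a b h (τ : ℂ) Ja Jb hv hθ hW hJW
  set K := 9 * |L| + 18 * |M| with hK
  set D := 4 * B ^ 3 with hD
  set E₀ := tens W θ with hE0
  set E₁ := JW + tens a θ with hE1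
  set F₀ := h • tens θ θ with hF0
  set F₁ := tens θ hv - tens b θ with hF1
  set T := J + (τ : ℂ) • tens r θ with hT
  set T' := J' - (τ : ℂ) • tens r' θ with hT'
  have z1 : cdens L M E₀ (tens r' θ) = 0 := by
    have e1 := hθ
    have e2 := hW
    simp only [hE0, cdens, tens, bdot, Fin.sum_univ_three] at *
    linear_combination (((L : ℂ) + M) * (θ 0 * r' 0 + θ 1 * r' 1 + θ 2 * r' 2)) * e2 +
      (M : ℂ) * (W 0 * r' 0 + W 1 * r' 1 + W 2 * r' 2) * e1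
  have z2 : cdens L M (tens r θ) (tens θ θ) = 0 := by
    have e1 := hθ
    simp only [cdens, tens, bdot, Fin.sum_univ_three] at *
    linear_combination (((L : ℂ) + 2 * M) * (θ 0 * r 0 + θ 1 * r 1 + θ 2 * r 2)) * e1
  have key : cdens L M ((τ : ℂ) ^ 2 • E₀ + (τ : ℂ) • E₁ + Ja + T)
        (-((τ : ℂ) ^ 2 * h) • tens θ θ + (τ : ℂ) • F₁ + Jb + T') -
      (τ : ℂ) ^ 2 * secondDens L M θ W a b h JW Ja Jb hv =
      (τ : ℂ) * (cdens L M E₁ Jb + cdens L M Ja F₁) + cdens L M Ja Jb +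
        (τ : ℂ) ^ 2 * (cdens L M E₀ J' - cdens L M J F₀) + cdens L M ((τ : ℂ) • E₁ + Ja) T' +
        cdens L M T ((τ : ℂ) • F₁ + Jb) + cdens L M T T' := by
    rw [firstDens] at hexp
    simp only [hT, hT', hE0, hE1, hF0, hF1, cdens_add_left, cdens_add_right, cdens_sub_right, cdens_smul_left,
      cdens_smul_right] at *
    linear_combination hexp - (τ : ℂ) ^ 3 * z1 - (τ : ℂ) ^ 3 * h * z2
  rw [key]
  have hτ0 : (0 : ℝ) ≤ τ := by linarith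
  have hn : ‖(τ : ℂ)‖ = τ := by rw [Complex.norm_real, Real.norm_eq_abs, abs_of_nonneg hτ0]
  have hB0 : (0 : ℝ) ≤ B := by linarith
  have hB2 : B ≤ B ^ 2 := by nlinarith
  have hB3 : B ^ 2 ≤ B ^ 3 := by nlinarith
  have ht : ∀ {p q : C3}, ‖p‖ ≤ B → ‖q‖ ≤ B → ‖tens p q‖ ≤ B ^ 2 := fun hp hq =>
    (norm_tens_le _ _).trans ((mul_le_mul hp hq (norm_nonneg _) hB0).trans_eq (sq B).symm)
  have dE0 : ‖E₀‖ ≤ D := (ht bW bθ).trans (by rw [hD]; linarith [pow_nonneg hB0 3])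
  have dE1 : ‖E₁‖ ≤ D := (norm_add_le _ _).trans (by rw [hD]; linarith [ht ba bθ, pow_nonneg hB0 3])
  have dF0 : ‖F₀‖ ≤ D := by
    rw [hF0, norm_smul]
    refine (mul_le_mul bh (ht bθ bθ) (norm_nonneg _) hB0).trans ?_
    rw [hD]; linarith [pow_nonneg hB0 3, show B * B ^ 2 = B ^ 3 by ring]
  have dF1 : ‖F₁‖ ≤ D :=
    (norm_sub_le _ _).trans (by rw [hD]; linarith [ht bθ bhv, ht bb bθ, pow_nonneg hB0 3])
  have dJa : ‖Ja‖ ≤ D := bJa.trans (by rw [hD]; linarith [pow_nonneg hB0 3])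
  have dJb : ‖Jb‖ ≤ D := bJb.trans (by rw [hD]; linarith [pow_nonneg hB0 3])
  have hBD : B * B ≤ D := by rw [hD]; nlinarith
  have hτinv : 1 / τ ≤ 1 := (div_le_one (by linarith)).2 hτ
  have dJ : ∀ {S : Fin 3 → Fin 3 → ℂ}, ‖S‖ ≤ B / τ + σ → ‖S‖ ≤ D * (1 / τ + σ) := fun hS => by
    refine hS.trans ?_
    have h1 : B ≤ D := by linarith
    have h2 : 1 ≤ D := hB.trans h1
    have := mul_le_mul_of_nonneg_right h1 (show (0 : ℝ) ≤ 1 / τ by positivity)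
    have := mul_le_mul_of_nonneg_right h2 hσ
    rw [div_eq_mul_one_div B τ]
    linarith
  have dTr : ∀ {S : Fin 3 → Fin 3 → ℂ} {p : C3}, ‖S‖ ≤ B / τ + σ → ‖p‖ ≤ B / τ + σ →
      ‖S‖ + ‖(τ : ℂ) • tens p θ‖ ≤ D * (1 + τ * σ) := by
    intro S p hS hp
    have h1 : ‖(τ : ℂ) • tens p θ‖ ≤ τ * ((B / τ + σ) * B) := by
      rw [norm_smul, hn]
      exact mul_le_mul_of_nonneg_left ((norm_tens_le _ _).trans
        (mul_le_mul hp bθ (norm_nonneg _) (by positivity))) hτ0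
    have h2 : τ * ((B / τ + σ) * B) = B * B + τ * σ * B := by field_simp
    have h3 : B / τ ≤ B := div_le_self hB0 hτ
    have h4 : σ ≤ τ * σ := le_mul_of_one_le_left hσ hτ
    have h5 := mul_le_mul_of_nonneg_left (show 1 + B ≤ D by rw [hD]; nlinarith) (mul_nonneg hτ0 hσ)
    have h6 : B + B * B ≤ D := by rw [hD]; nlinarith
    linarith
  have dT : ‖T‖ ≤ D * (1 + τ * σ) := (norm_add_le _ _).trans (dTr bJ br)
  have dT' : ‖T'‖ ≤ D * (1 + τ * σ) := (norm_sub_le _ _).trans (dTr bJ' br')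
  have dlow : ∀ {P Q : Fin 3 → Fin 3 → ℂ}, ‖P‖ ≤ D → ‖Q‖ ≤ D →
      ‖(τ : ℂ) • P + Q‖ ≤ 2 * τ * D := by
    intro P Q hP hQ
    refine (norm_add_le _ _).trans ?_
    rw [norm_smul, hn]
    linarith [mul_le_mul_of_nonneg_left hP hτ0, hQ,
      le_mul_of_one_le_left ((norm_nonneg Q).trans hQ) hτ]
  have cb : ∀ {P Q : Fin 3 → Fin 3 → ℂ} {p q : ℝ}, ‖P‖ ≤ p → ‖Q‖ ≤ q → ‖cdens L M P Q‖ ≤ K * (p * q) :=
    fun hP hQ => (norm_cdens_le L M _ _).trans (by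
      rw [mul_assoc]
      exact mul_le_mul_of_nonneg_left (mul_le_mul hP hQ (norm_nonneg _) ((norm_nonneg _).trans hP))
        (by positivity))
  have t1 : ‖(τ : ℂ) * (cdens L M E₁ Jb + cdens L M Ja F₁)‖ ≤ τ * (K * (D * D) + K * (D * D)) := by
    rw [norm_mul, hn]
    exact mul_le_mul_of_nonneg_left (norm_add_le_of_le (cb dE1 dJb) (cb dJa dF1)) hτ0
  have t3 : ‖(τ : ℂ) ^ 2 * (cdens L M E₀ J' - cdens L M J F₀)‖ ≤
      τ ^ 2 * (K * (D * (D * (1 / τ + σ))) + K * (D * (1 / τ + σ) * D)) := by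
    rw [norm_mul, norm_pow, hn]
    exact mul_le_mul_of_nonneg_left ((norm_sub_le _ _).trans
      (add_le_add (cb dE0 (dJ bJ')) (cb (dJ bJ) dF0))) (sq_nonneg τ)
  have t4 := cb (dlow dE1 dJa) dT'
  have t5 := cb dT (dlow dF1 dJb)
  have t6 := cb dT dT'
  refine (norm_add_le_of_le (norm_add_le_of_le (norm_add_le_of_le (norm_add_le_of_le
    (norm_add_le_of_le t1 (cb dJa dJb)) t3) t4) t5) t6).trans ?_
  have e : τ * (K * (D * D) + K * (D * D)) + K * (D * D) +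
      τ ^ 2 * (K * (D * (D * (1 / τ + σ))) + K * (D * (1 / τ + σ) * D)) +
      K * (2 * τ * D * (D * (1 + τ * σ))) + K * (D * (1 + τ * σ) * (2 * τ * D)) +
      K * (D * (1 + τ * σ) * (D * (1 + τ * σ))) =
      K * D ^ 2 * (2 * τ + 1 + 2 * (τ + τ ^ 2 * σ) + 4 * (τ + τ ^ 2 * σ) + (1 + τ * σ) ^ 2) := by
    field_simp
    ring
  rw [e, show 20 * K * D ^ 2 * (τ + τ ^ 3 * σ ^ 2) = K * D ^ 2 * (20 * (τ + τ ^ 3 * σ ^ 2)) by ring]
  refine mul_le_mul_of_nonneg_left ?_ (by positivity)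
  have q1 : 2 * (τ ^ 2 * σ) ≤ τ + τ ^ 3 * σ ^ 2 := by
    linarith [mul_nonneg hτ0 (sq_nonneg (τ * σ - 1)),
      show τ * (τ * σ - 1) ^ 2 = τ + τ ^ 3 * σ ^ 2 - 2 * (τ ^ 2 * σ) by ring]
  have q2 : (1 + τ * σ) ^ 2 ≤ 2 * τ + 2 * (τ ^ 3 * σ ^ 2) := by
    linarith [sq_nonneg (τ * σ - 1), mul_le_mul_of_nonneg_right hτ (sq_nonneg (τ * σ)),
      show (1 + τ * σ) ^ 2 + (τ * σ - 1) ^ 2 = 2 + 2 * (τ * σ) ^ 2 by ring,
      show τ * (τ * σ) ^ 2 = τ ^ 3 * σ ^ 2 by ring]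
  linarith [mul_nonneg (pow_nonneg hτ0 3) (sq_nonneg σ)]

end

end Vale.Agent.P136.Full
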