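import Mathlib
import Vale.Agent.P136.Full.Alg.LeadEqn
import Vale.Agent.P136.Full.Orth.Expansion
import Vale.Agent.P136.Full.Orth.Remainder

/-!
# P136: equal maps give orthogonality of the realised amplitudes
-/

open MeasureTheory Set Filter Metric
open scoped Topology ContDiff

namespace Vale.Agent.P136.Full

noncomputable section

theorem isNull_neg {θ : C3} (hθ : IsNull θ) : IsNull (-θ) :=
  ⟨by simpa [bdot] using hθ.1, neg_ne_zero.2 hθ.2⟩

/-- An adjoint amplitude gives the first coefficient of an exponential solution along `-θ`. -/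
theorem transport_adjSeed (M : Moduli) (θ : C3) {η : Space → Amp} (hη : ContDiff ℝ ∞ η) {x : Space}
    (h : Dth θ η x + M.amatT θ x (η x) = 0) : M.transport (-θ) (M.adjSeed η) x = 0 := by
  have d : ∀ {f : Space → ℂ}, ContDiff ℝ ∞ f → DifferentiableAt ℝ f x := fun h' =>
    Moduli.differentiableAt_of h' x
  have dη : DifferentiableAt ℝ η x := hη.differentiable (by simp) x
  have cP : ContDiff ℝ ∞ fun y => M.AC y + M.muC y := M.contDiff_AC.add M.contDiff_muC
  have cη2 : ContDiff ℝ ∞ fun y => (η y).2 := hη.snd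
  have hD : Dth θ η x = -M.amatT θ x (η x) := eq_neg_of_add_eq_zero_left h
  have eW : ∀ k, Dth θ (fun y => (η y).1 k) x = -(M.amatT θ x (η x)).1 k := fun k => by
    rw [Dth_apply θ k dη.fst, Dth_fst θ dη, hD]; rfl
  have eP : Dth θ (fun y => (η y).2) x = -(M.amatT θ x (η x)).2 := by rw [Dth_snd θ dη, hD]; rfl
  have hneg : ∀ f : Space → ℂ, Dth (-θ) f x = -Dth θ f x := fun f => by simp [Dth]
  have eDn : Dth θ M.nC x = -(Dth θ M.muC x) / (2 * M.muC x * M.sqC x) := by
    simp only [Dth, M.pd_nC, smul_eq_mul, Fin.sum_univ_three]; ring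
  have eg : Dth θ (fun y => -(M.muC y * (η y).2 / (M.AC y + M.muC y))) x =
      -(((Dth θ M.muC x * (η x).2 + M.muC x * Dth θ (fun y => (η y).2) x) * (M.AC x + M.muC x) -
        M.muC x * (η x).2 * (Dth θ M.AC x + Dth θ M.muC x)) / (M.AC x + M.muC x) ^ 2) := by
    simp only [Dth, smul_eq_mul, Fin.sum_univ_three]
    rw [pd_neg, pd_neg, pd_neg,
      pd_div 0 ((d M.contDiff_muC).fun_mul (d cη2)) (d cP) (M.AC_add_muC_ne x),
      pd_div 1 ((d M.contDiff_muC).fun_mul (d cη2)) (d cP) (M.AC_add_muC_ne x),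
      pd_div 2 ((d M.contDiff_muC).fun_mul (d cη2)) (d cP) (M.AC_add_muC_ne x)]
    simp only [pd_mul _ (d M.contDiff_muC) (d cη2), pd_add _ (d M.contDiff_AC) (d M.contDiff_muC)]
    ring
  have hmu := M.muC_ne x
  have hP := M.AC_add_muC_ne x
  have hs := M.sqC_ne x
  simp only [Moduli.transport, Moduli.adjSeed]
  refine Prod.ext ?_ ?_
  · funext i
    have cr : ContDiff ℝ ∞ fun y => M.nC y • (η y).1 := M.contDiff_nC.smul hη.fst
    have e1 : Dth (-θ) (fun y => M.nC y • (η y).1) x i =
        -(Dth θ M.nC x * (η x).1 i + M.nC x * Dth θ (fun y => (η y).1 i) x) := by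
      rw [← Dth_apply (-θ) i (cr.differentiable (by simp) x), hneg]
      exact congrArg Neg.neg (Dth_mul θ (d M.contDiff_nC) (d (contDiff_pi.1 hη.fst i)))
    have ehn : hessVec M.mC x (-θ) i = -hessVec M.mC x θ i := by simp [hessVec]
    simp only [Pi.sub_apply, Pi.smul_apply, smul_eq_mul]
    rw [e1]
    simp only [Pi.sub_apply, Pi.smul_apply, smul_eq_mul, eW, eDn, ehn, Moduli.amatT,
      Pi.add_apply, bdot_three, Pi.neg_apply, grad, M.nC_eq, M.mC_eq, Prod.fst_zero, Pi.zero_apply]
    rw [← M.sqC_mul_sqC x]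
    field_simp
    ring
  · simp only [hneg, eg, eP, Moduli.amatT, M.cC_eq, bdot_three, Pi.smul_apply, Pi.neg_apply,
      smul_eq_mul, M.nC_eq, Prod.snd_zero]
    field_simp
    ring

theorem continuous_tens {a b : Space → C3} (ha : Continuous a) (hb : Continuous b) :
    Continuous fun x => tens (a x) (b x) :=
  continuous_pi fun i => continuous_pi fun j =>
    ((continuous_apply i).comp ha).mul ((continuous_apply j).comp hb)

theorem continuous_secondCoef (M : Moduli) (θ : C3) {W a b : Space → C3} {h : Space → ℂ}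
    (hW : ContDiff ℝ ∞ W) (ha : ContDiff ℝ ∞ a) (hb : ContDiff ℝ ∞ b) (hh : ContDiff ℝ ∞ h) :
    Continuous (M.secondCoef θ W a h b) := by
  have hl := M.lam_smooth.continuous
  have hm := M.mu_smooth.continuous
  have j : ∀ {u : Space → C3}, ContDiff ℝ ∞ u → Continuous (jac u) := fun h' =>
    continuous_jac (h'.of_le (by simp))
  refine ((P136.continuous_cdens hl hm (continuous_tens hW.continuous continuous_const) (j hb)).add
    (P136.continuous_cdens hl hm ((j hW).add (continuous_tens ha.continuous continuous_const))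
      ((continuous_tens continuous_const (contDiff_grad hh).continuous).sub
        (continuous_tens hb.continuous continuous_const)))).add
    (P136.continuous_cdens hl hm (j ha) (hh.continuous.smul
      (continuous_const (y := tens θ θ))).neg)

/-- The form of two exponential fields with small remainders is its leading coefficient up to
`O(τ)`. -/
theorem exists_form_bound (M : Moduli) {Ω : Set Space} {R : ℝ} {θ : C3} (hΩ : IsOpen Ω)
    (hR : closure Ω ⊆ ball (0 : Space) R) (hθ : bdot θ θ = 0) {W a b : Space → C3} {h : Space → ℂ}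
    (hW : ContDiff ℝ ∞ W) (ha : ContDiff ℝ ∞ a) (hb : ContDiff ℝ ∞ b) (hh : ContDiff ℝ ∞ h)
    (hperp : ∀ x ∈ ball (0 : Space) R, bdot θ (W x) = 0) (B₀ : ℝ) :
    ∃ C : ℝ, 0 ≤ C ∧ ∀ τ : ℝ, 1 ≤ τ → ∀ (u v r r' : Space → C3) (σ : Space → ℝ),
      ContDiff ℝ 1 u → ContDiff ℝ 1 v → ContDiff ℝ 1 r → ContDiff ℝ 1 r' → Continuous σ →
      (∀ x, 0 ≤ σ x) →
      (∀ y ∈ ball (0 : Space) R, (τ : ℂ) • u y = expo θ τ y • ((τ : ℂ) • W y + a y + r y)) →
      (∀ y ∈ ball (0 : Space) R,
        v y = expo (-θ) τ y • (((τ : ℂ) * h y) • θ + b y + r' y)) →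
      (∀ x ∈ Ω, ‖r x‖ ≤ B₀ / τ + σ x ∧ ‖jac r x‖ ≤ B₀ / τ + σ x ∧
        ‖r' x‖ ≤ B₀ / τ + σ x ∧ ‖jac r' x‖ ≤ B₀ / τ + σ x) →
      ‖(τ : ℂ) * M.cform Ω u v - (τ : ℂ) ^ 2 * ∫ x in Ω, M.secondCoef θ W a h b x‖ ≤
        C * ∫ x in Ω, (τ + τ ^ 3 * σ x ^ 2) := by
  have hbd : Bornology.IsBounded Ω := isBounded_ball.subset (subset_closure.trans hR)
  have j : ∀ {u : Space → C3}, ContDiff ℝ ∞ u → Continuous fun x => ‖jac u x‖ := fun h' =>
    (continuous_jac (h'.of_le (by simp))).norm
  set F : Space → ℝ := fun x => ‖h x‖ + ‖W x‖ + ‖a x‖ + ‖b x‖ + ‖grad h x‖ + ‖jac W x‖ + ‖jac a x‖ +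
    ‖jac b x‖ + ‖θ‖ + |B₀| + 1 with hF
  have cF : Continuous F := ((((((((((hh.continuous.norm.add hW.continuous.norm).add
    ha.continuous.norm).add hb.continuous.norm).add (contDiff_grad hh).continuous.norm).add (j hW)).add
      (j ha)).add (j hb)).add continuous_const).add continuous_const).add continuous_const)
  obtain ⟨B₁, hB₁⟩ := hbd.isCompact_closure.exists_bound_of_continuousOn cF.continuousOn
  obtain ⟨K₁, hK₁⟩ := hbd.isCompact_closure.exists_bound_of_continuousOn
    ((continuous_const.mul (continuous_abs.comp M.lam_smooth.continuous)).add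
      (continuous_const.mul (continuous_abs.comp M.mu_smooth.continuous)) :
      Continuous fun x => 9 * |M.lam x| + 18 * |M.mu x|).continuousOn
  set B := max B₁ 1 with hB
  set K := max K₁ 0 with hK
  refine ⟨20 * K * (4 * B ^ 3) ^ 2, by positivity, fun τ hτ u v r r' σ cu cv cr cr' cσ hσ hu hv hr => ?_⟩
  have c1 : ∀ {u : Space → C3}, ContDiff ℝ ∞ u → ∀ x, DifferentiableAt ℝ u x := fun h' x =>
    h'.differentiable (by simp) x
  have point : ∀ x ∈ Ω, ‖(τ : ℂ) * cdens (M.lam x) (M.mu x) (jac u x) (jac v x) -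
      (τ : ℂ) ^ 2 * M.secondCoef θ W a h b x‖ ≤ 20 * K * (4 * B ^ 3) ^ 2 * (τ + τ ^ 3 * σ x ^ 2) := by
    intro x hx
    have hxR : x ∈ ball (0 : Space) R := hR (subset_closure hx)
    have hnhds : ball (0 : Space) R ∈ 𝓝 x := isOpen_ball.mem_nhds hxR
    have dW := c1 hW x
    have da := c1 ha x
    have db := c1 hb x
    have dr := cr.differentiable one_ne_zero x
    have dr' := cr'.differentiable one_ne_zero x
    have dh : DifferentiableAt ℝ h x := hh.differentiable (by simp) x
    have dτh : DifferentiableAt ℝ (fun y => (τ : ℂ) * h y) x := (differentiableAt_const _).fun_mul dh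
    have dτW : DifferentiableAt ℝ (fun y => (τ : ℂ) • W y) x := dW.fun_const_smul _
    have dθh : DifferentiableAt ℝ (fun y => ((τ : ℂ) * h y) • θ) x :=
      dτh.fun_smul (differentiableAt_const _)
    have hJW : ∀ j, ∑ i, θ i * jac W x i j = 0 := by
      intro j
      have e0 := pd_eq_zero_on isOpen_ball (f := fun y => bdot θ (W y)) (fun y hy => hperp y hy) hxR j
      have dWi : ∀ i, DifferentiableAt ℝ (fun y => W y i) x := differentiableAt_pi.1 dW
      simp only [bdot] at e0
      rw [pd_sum Finset.univ j fun i _ => (differentiableAt_const (θ i)).fun_mul (dWi i)] at e0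
      rw [← e0]
      refine Finset.sum_congr rfl fun i _ => ?_
      rw [pd_mul j (differentiableAt_const _) (dWi i), pd_const, zero_mul, zero_add]
      rfl
    have eu : (τ : ℂ) • jac u x = expo θ τ x • ((τ : ℂ) ^ 2 • tens (W x) θ +
        (τ : ℂ) • (jac W x + tens (a x) θ) + jac a x + (jac r x + (τ : ℂ) • tens (r x) θ)) := by
      rw [← jac_const_smul (τ : ℂ) (cu.differentiable one_ne_zero x),
        jac_congr (by filter_upwards [hnhds] with y hy using hu y hy),
        jac_expo_smul θ τ ((dτW.fun_add da).fun_add dr), jac_add (dτW.fun_add da) dr,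
        jac_add dτW da, jac_const_smul _ dW]
      congr 1
      funext i j
      simp only [tens, Pi.add_apply, Pi.smul_apply, smul_eq_mul]
      ring
    have ev : jac v x = expo (-θ) τ x • (-((τ : ℂ) ^ 2 * h x) • tens θ θ +
        (τ : ℂ) • (tens θ (grad h x) - tens (b x) θ) + jac b x +
          (jac r' x - (τ : ℂ) • tens (r' x) θ)) := by
      rw [jac_congr (by filter_upwards [hnhds] with y hy using hv y hy),
        jac_expo_smul (-θ) τ ((dθh.fun_add db).fun_add dr'), jac_add (dθh.fun_add db) dr',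
        jac_add dθh db, jac_smul_vec θ dτh, grad_fun_smul (τ : ℂ) dh]
      congr 1
      funext i j
      simp only [tens, Pi.add_apply, Pi.sub_apply, Pi.neg_apply, Pi.smul_apply, smul_eq_mul]
      ring
    have ee : expo θ τ x * expo (-θ) τ x = 1 := by
      have e : (τ : ℂ) * phase θ x + (τ : ℂ) * phase (-θ) x = 0 := by
        simp [phase, Finset.sum_neg_distrib]
      rw [expo, expo, ← Complex.exp_add, e, Complex.exp_zero]
    rw [← cdens_smul_left, eu, ev, cdens_smul_smul, ee, one_mul]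
    have hFB : F x ≤ B := ((le_abs_self _).trans (hB₁ x (subset_closure hx))).trans (le_max_left _ _)
    simp only [hF] at hFB
    have n1 := norm_nonneg (h x)
    have n2 := norm_nonneg (W x)
    have n3 := norm_nonneg (a x)
    have n4 := norm_nonneg (b x)
    have n5 := norm_nonneg (grad h x)
    have n6 := norm_nonneg (jac W x)
    have n7 := norm_nonneg (jac a x)
    have n8 := norm_nonneg (jac b x)
    have n9 := norm_nonneg θ
    have n10 := abs_nonneg B₀
    have hq : B₀ / τ + σ x ≤ B / τ + σ x := by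
      refine add_le_add (div_le_div_of_nonneg_right ?_ (by linarith)) le_rfl
      linarith [le_abs_self B₀]
    obtain ⟨r1, r2, r3, r4⟩ := hr x hx
    refine (cdens_rem_le (L := M.lam x) (M := M.mu x) (jac a x) (jac b x) (jac r x) (jac r' x) hτ (hσ x)
      (le_max_right _ _) hθ (hperp x hxR) hJW (by linarith) (by linarith) (by linarith) (by linarith)
      (by linarith) (by linarith) (by linarith) (by linarith) (by linarith) (r1.trans hq) (r2.trans hq)
      (r3.trans hq) (r4.trans hq)).trans ?_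
    have hKx : 9 * |M.lam x| + 18 * |M.mu x| ≤ K :=
      ((le_abs_self _).trans (hK₁ x (subset_closure hx))).trans (le_max_left _ _)
    have h0 : 0 ≤ τ + τ ^ 3 * σ x ^ 2 := by positivity
    exact mul_le_mul_of_nonneg_right (mul_le_mul_of_nonneg_right
      (mul_le_mul_of_nonneg_left hKx (by norm_num)) (sq_nonneg _)) h0
  have i1 : IntegrableOn (fun x => (τ : ℂ) * cdens (M.lam x) (M.mu x) (jac u x) (jac v x)) Ω :=
    P136.integrableOn_of_continuous hbd (continuous_const.mul (P136.continuous_cdens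
      M.lam_smooth.continuous M.mu_smooth.continuous (continuous_jac cu) (continuous_jac cv)))
  have i2 : IntegrableOn (fun x => (τ : ℂ) ^ 2 * M.secondCoef θ W a h b x) Ω :=
    P136.integrableOn_of_continuous hbd
      (continuous_const.mul (continuous_secondCoef M θ hW ha hb hh))
  rw [cform_eq_cdens, ← integral_const_mul, ← integral_const_mul, ← integral_const_mul,
    ← integral_sub i1 i2]
  exact (norm_integral_le_integral_norm _).trans (setIntegral_mono_on (i1.sub i2).norm
    (P136.integrableOn_of_continuous hbd (continuous_const.mul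
      (continuous_const.add (continuous_const.mul (cσ.pow 2))))) hΩ.measurableSet point)

set_option maxHeartbeats 400000 in
/-- G: equal maps give orthogonality of the realised amplitudes. -/
theorem orth (hS : SolveStmt) (hT : TransportStmt) (hFo : FormStmt) (hD : DispSolStmt) : OrthStmt := by
  intro Ω M₁ M₂ R hΩ hR hF hmap θ hθ Y hY
  have hbd : Bornology.IsBounded Ω := isBounded_ball.subset (subset_closure.trans hR)
  refine ⟨hY.smooth, fun x hx => hY.perp hθ.1 hx, fun x hx => hY.eqn hθ.1 hx, fun η hη hadj => ?_⟩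
  have hsm := hY.smooth
  have hper : ∀ x ∈ ball (0 : Space) R, bdot θ (Y x).1 = 0 := fun x hx => hY.perp hθ.1 hx
  have heq : ∀ x ∈ ball (0 : Space) R, Dth θ Y x = M₂.amat θ x (Y x) := fun x hx => hY.eqn hθ.1 hx
  obtain ⟨Y₀, Y₁, h₀, h₁, hb₀, rfl⟩ := hY
  -- the two exponential solutions
  have cZ₀ : ContDiff ℝ ∞ (M₁.adjSeed η) := contDiff_adjSeed M₁ hη
  obtain ⟨Z₁, cZ₁, hZ₁⟩ := exists_next hT M₁ (isNull_neg hθ) R cZ₀
  obtain ⟨N, Ys, Cu, τu, hN, hYs0, hYs1, cYs, hτu, hu⟩ := exists_expSol hS hT hD hΩ hR M₂ hθ h₀ h₁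
    (fun x hx => (hb₀ x hx).2.2.1) (fun x hx => (hb₀ x hx).2.2.2) 3
  obtain ⟨N', Zs, Cv, τv, hN', hZs0, hZs1, cZs, -, hv⟩ := exists_expSol hS hT hD hΩ hR M₁
    (isNull_neg hθ) cZ₀ cZ₁ (fun x hx => transport_adjSeed M₁ θ hη (hadj x hx)) hZ₁ 3
  obtain ⟨m, rfl⟩ : ∃ m, N = m + 2 := ⟨N - 2, by omega⟩
  obtain ⟨m', rfl⟩ : ∃ m, N' = m + 2 := ⟨N' - 2, by omega⟩
  set W : Space → C3 := fun y => (M₂.lead θ Y₀ Y₁ y).1 with hW
  set a : Space → C3 := fun y => M₂.disp (Ys 1) y + M₂.gpart θ (Ys 2) y with ha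
  set h : Space → ℂ := fun y => -(M₁.mC y * (M₁.adjSeed η y).2) with hh
  set t : Space → ℂ := fun y => -(M₁.mC y * (Z₁ y).2) with ht
  set b : Space → C3 := fun y => M₁.disp (M₁.adjSeed η) y + t y • θ with hb
  have cW : ContDiff ℝ ∞ W := hsm.fst
  have ca : ContDiff ℝ ∞ a := (M₂.contDiff_disp (cYs 1)).add (M₂.contDiff_gpart θ (cYs 2))
  have ch : ContDiff ℝ ∞ h := (M₁.contDiff_mC.mul cZ₀.snd).neg
  have ct : ContDiff ℝ ∞ t := (M₁.contDiff_mC.mul cZ₁.snd).neg
  have cb : ContDiff ℝ ∞ b := (M₁.contDiff_disp cZ₀).add (ct.smul contDiff_const)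
  have hdiv : ∀ x ∈ ball (0 : Space) R, bdot θ (a x) + divv W x = (M₂.lead θ Y₀ Y₁ x).2 := by
    intro x _
    simp only [ha, bdot_add_right, Moduli.gpart, bdot_smul_right, hθ.1, mul_zero, add_zero, hYs1,
      Moduli.lead, hW]
  have hid := leading_identity hΩ hR hF hθ hsm hη ca ct hper heq hdiv hadj
  -- bounds for the remainders
  have hcl := hbd.isCompact_closure
  obtain ⟨Bu, hBu0, hBu⟩ := M₂.exists_tail_bound θ m cYs hcl
  obtain ⟨Bv, hBv0, hBv⟩ := M₁.exists_tail_bound (-θ) m' cZs hcl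
  obtain ⟨Pu, hPu0, hPu⟩ := M₂.exists_conjDisp_bound θ hcl
  obtain ⟨Pv, hPv0, hPv⟩ := M₁.exists_conjDisp_bound (-θ) hcl
  set Q : Space → C3 := fun y => M₁.disp (Zs 1) y + M₁.gpart (-θ) (Zs 2) y with hQ
  have cQ : ContDiff ℝ ∞ Q := (M₁.contDiff_disp (cZs 1)).add (M₁.contDiff_gpart (-θ) (cZs 2))
  obtain ⟨Bq, hBq⟩ := hcl.exists_bound_of_continuousOn
    ((cQ.continuous.norm.add (continuous_jac (cQ.of_le (by simp))).norm :
      Continuous fun x => ‖Q x‖ + ‖jac Q x‖)).continuousOn
  set B₀ := Bu + max Bq 0 + Bv with hB0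
  obtain ⟨C₁, hC₁0, hC₁⟩ := exists_form_bound M₁ hΩ hR hθ.1 cW ca cb ch hper B₀
  obtain ⟨C₂, hC₂0, hC₂⟩ := exists_form_bound M₂ hΩ hR hθ.1 cW ca cb ch hper B₀
  set vol := ∫ _x in Ω, (1 : ℝ) with hvol
  set P := Pu + Pv with hP
  set C := (C₁ + C₂) * (vol + 2 * P ^ 2 * (Cu + Cv)) with hC
  set I := ∫ x in Ω, (M₁.secondCoef θ W a h b x - M₂.secondCoef θ W a h b x) with hI
  have bound : ∀ τ : ℝ, τu ≤ τ → τv ≤ τ → τ ^ 2 * ‖I‖ ≤ C * τ := by
    intro τ hτ hτ'
    have hτ1 : 1 ≤ τ := hτu.trans hτ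
    have hτ0 : τ ≠ 0 := by linarith
    have hτc : (τ : ℂ) ≠ 0 := Complex.ofReal_ne_zero.2 hτ0
    obtain ⟨w, cw, hwb, hwA⟩ := hu τ hτ
    obtain ⟨w', cw', hwb', hwA'⟩ := hv τ hτ'
    have hlim := hFo Ω M₁ M₂ hΩ hbd hmap _ _ hwA hwA'
    set uk : ℕ → Space → C3 := fun k x => expo θ τ x • M₂.conjDisp θ τ (expAmp τ (m + 2) Ys + w k) x
    set vk : ℕ → Space → C3 := fun k x =>
      expo (-θ) τ x • M₁.conjDisp (-θ) τ (expAmp τ (m' + 2) Zs + w' k) x
    have hbk : ∀ k, τ ^ 2 * ‖I‖ - C * τ ≤ τ * ‖M₁.cform Ω (uk k) (vk k) - M₂.cform Ω (uk k) (vk k)‖ := by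
      intro k
      set q : ℂ := (τ : ℂ)⁻¹ with hq
      have hqn : ‖q‖ = 1 / τ := by
        rw [hq, norm_inv, Complex.norm_real, Real.norm_eq_abs, abs_of_pos (by linarith), one_div]
      have hq1 : ‖q‖ ≤ 1 := by rw [hqn]; exact (div_le_one (by linarith)).2 hτ1
      set r : Space → C3 := fun y => q • M₂.tail θ q m Ys y + (τ : ℂ) • M₂.conjDisp θ τ (w k) y with hr
      set r' : Space → C3 := fun y => q • (Q y + q • M₁.tail (-θ) q m' Zs y) +
        M₁.conjDisp (-θ) τ (w' k) y with hr'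
      set σ : Space → ℝ := fun x => P * τ ^ 2 * (√(sobSqr (w k) x) + √(sobSqr (w' k) x)) with hσ
      have cT := M₂.contDiff_tail θ q m cYs
      have cT' := M₁.contDiff_tail (-θ) q m' cZs
      have cz := M₂.contDiff_conjDisp θ τ (cw k)
      have cz' := M₁.contDiff_conjDisp (-θ) τ (cw' k)
      have cr : ContDiff ℝ 1 r := ((cT.const_smul q).add (cz.const_smul (τ : ℂ))).of_le (by simp)
      have cr' : ContDiff ℝ 1 r' := (((cQ.add (cT'.const_smul q)).const_smul q).add cz').of_le (by simp)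
      have cu : ContDiff ℝ 1 (uk k) := hwA.smooth k
      have cv : ContDiff ℝ 1 (vk k) := hwA'.smooth k
      have hσ0 : ∀ x, 0 ≤ σ x := fun x => by simp only [hσ]; positivity
      have cσ : Continuous σ := continuous_const.mul
        ((continuous_sobSqr' (cw k)).sqrt.add (continuous_sobSqr' (cw' k)).sqrt)
      have eu : ∀ y ∈ ball (0 : Space) R,
          (τ : ℂ) • uk k y = expo θ τ y • ((τ : ℂ) • W y + a y + r y) := by
        intro y hy
        have hg : ∀ z ∈ ball (0 : Space) R, (Y₀ z).2 = 0 := fun z hz => (hb₀ z hz).2.1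
        have eW : M₂.disp (Ys 0) y + M₂.gpart θ (Ys 1) y = W y := by
          simp only [hYs0, hYs1, hW, Moduli.lead, Moduli.gpart, Moduli.disp, hg y hy, zero_smul, sub_zero,
            show grad (fun z => (Y₀ z).2) y = 0 from funext fun i => pd_eq_zero_on isOpen_ball hg hy i,
            smul_zero, add_zero]
        have e0 : M₂.gpart θ (Ys 0) y = 0 := by simp [Moduli.gpart, hYs0, hg y hy]
        simp only [uk, hr, ha, hq, M₂.conjDisp_add θ τ (contDiff_expAmp τ (m + 2) cYs) (cw k),
          M₂.conjDisp_expAmp_split θ hτ0 cYs m, eW, e0, smul_zero, zero_add, smul_add, smul_smul]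
        match_scalars <;> field_simp
      have ev : ∀ y ∈ ball (0 : Space) R,
          vk k y = expo (-θ) τ y • (((τ : ℂ) * h y) • θ + b y + r' y) := by
        intro y _
        simp only [vk, hr', hb, hh, ht, hQ, hq,
          M₁.conjDisp_add (-θ) τ (contDiff_expAmp τ (m' + 2) cZs) (cw' k),
          M₁.conjDisp_expAmp_split (-θ) hτ0 cZs m', hZs0, hZs1, Moduli.gpart, smul_add, smul_smul,
          smul_neg]
        match_scalars <;> ring
      have hrb : ∀ x ∈ Ω, ‖r x‖ ≤ B₀ / τ + σ x ∧ ‖jac r x‖ ≤ B₀ / τ + σ x ∧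
          ‖r' x‖ ≤ B₀ / τ + σ x ∧ ‖jac r' x‖ ≤ B₀ / τ + σ x := by
        intro x hx
        have hxc := subset_closure hx
        obtain ⟨t1, t2⟩ := hBu q hq1 x hxc
        obtain ⟨t3, t4⟩ := hBv q hq1 x hxc
        obtain ⟨z1, z2⟩ := hPu τ hτ1 (w k) (cw k) x hxc
        obtain ⟨z3, z4⟩ := hPv τ hτ1 (w' k) (cw' k) x hxc
        have tQ : ‖Q x‖ + ‖jac Q x‖ ≤ max Bq 0 :=
          ((le_abs_self _).trans (hBq x hxc)).trans (le_max_left _ _)
        have s0 : ∀ {s : ℝ}, s ≤ B₀ → 1 / τ * s ≤ B₀ / τ := fun hs =>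
          (mul_le_mul_of_nonneg_left hs (by positivity)).trans_eq (by ring)
        have a0 := Real.sqrt_nonneg (sobSqr (w k) x)
        have a1 := Real.sqrt_nonneg (sobSqr (w' k) x)
        have hτn : ‖(τ : ℂ)‖ = τ := by rw [Complex.norm_real, Real.norm_eq_abs, abs_of_nonneg (by linarith)]
        have su : τ * (Pu * τ * √(sobSqr (w k) x)) ≤ σ x := by
          simp only [hσ, hP]
          have := mul_nonneg (mul_nonneg hPv0 (sq_nonneg τ)) (add_nonneg a0 a1)
          have := mul_nonneg (mul_nonneg hPu0 (sq_nonneg τ)) a1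
          linarith
        have sv : Pv * τ * √(sobSqr (w' k) x) ≤ σ x := by
          simp only [hσ, hP]
          have := mul_nonneg (mul_nonneg hPu0 (sq_nonneg τ)) (add_nonneg a0 a1)
          have := mul_nonneg (mul_nonneg hPv0 (sq_nonneg τ)) a0
          have := mul_le_mul_of_nonneg_left (le_self_pow₀ hτ1 two_ne_zero)
            (mul_nonneg hPv0 a1)
          linarith
        have d : ∀ {u : Space → C3}, ContDiff ℝ ∞ u → DifferentiableAt ℝ u x := fun h' =>
          h'.differentiable (by simp) x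
        have er : jac r x = q • jac (M₂.tail θ q m Ys) x + (τ : ℂ) • jac (M₂.conjDisp θ τ (w k)) x := by
          simp only [hr]
          rw [jac_add ((d cT).fun_const_smul _) ((d cz).fun_const_smul _), jac_const_smul _ (d cT),
            jac_const_smul _ (d cz)]
        have er' : jac r' x = q • (jac Q x + q • jac (M₁.tail (-θ) q m' Zs) x) +
            jac (M₁.conjDisp (-θ) τ (w' k)) x := by
          simp only [hr']
          rw [jac_add (((d cQ).fun_add ((d cT').fun_const_smul _)).fun_const_smul _) (d cz'),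
            jac_const_smul _ ((d cQ).fun_add ((d cT').fun_const_smul _)),
            jac_add (d cQ) ((d cT').fun_const_smul _), jac_const_smul _ (d cT')]
        have nQ := norm_nonneg (Q x)
        have nJQ := norm_nonneg (jac Q x)
        have mB := le_max_right Bq 0
        refine ⟨?_, ?_, ?_, ?_⟩
        · refine (norm_add_le _ _).trans (add_le_add ?_ ?_)
          · rw [norm_smul, hqn]; exact s0 (by linarith)
          · rw [norm_smul, hτn]; exact (mul_le_mul_of_nonneg_left z1 (by linarith)).trans su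
        · rw [er]
          refine (norm_add_le _ _).trans (add_le_add ?_ ?_)
          · rw [norm_smul, hqn]; exact s0 (by linarith)
          · rw [norm_smul, hτn]; exact (mul_le_mul_of_nonneg_left z2 (by linarith)).trans su
        · refine (norm_add_le _ _).trans (add_le_add ?_ (z3.trans sv))
          rw [norm_smul, hqn]
          refine s0 ((norm_add_le _ _).trans ?_)
          rw [norm_smul]
          linarith [mul_le_of_le_one_left (norm_nonneg (M₁.tail (-θ) q m' Zs x)) hq1]
        · rw [er']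
          refine (norm_add_le _ _).trans (add_le_add ?_ (z4.trans sv))
          rw [norm_smul, hqn]
          refine s0 ((norm_add_le _ _).trans ?_)
          rw [norm_smul]
          linarith [mul_le_of_le_one_left (norm_nonneg (jac (M₁.tail (-θ) q m' Zs) x)) hq1]
      have b1 := hC₁ τ hτ1 _ _ r r' σ cu cv cr cr' cσ hσ0 eu ev hrb
      have b2 := hC₂ τ hτ1 _ _ r r' σ cu cv cr cr' cσ hσ0 eu ev hrb
      have hJ : ∫ x in Ω, (τ + τ ^ 3 * σ x ^ 2) ≤ τ * (vol + 2 * P ^ 2 * (Cu + Cv)) := by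
        have iσ : IntegrableOn (fun x => τ ^ 3 * σ x ^ 2) Ω :=
          P136.integrableOn_of_continuous hbd (continuous_const.mul (cσ.pow 2))
        have is : ∀ {z : Space → Amp}, ContDiff ℝ ∞ z → IntegrableOn (sobSqr z) (ball (0 : Space) R) :=
          fun hz => P136.integrableOn_of_continuous isBounded_ball (continuous_sobSqr' hz)
        have hsub := subset_closure.trans hR
        have hs : ∀ {z : Space → Amp} {c : ℝ}, ContDiff ℝ ∞ z →
            ∫ x in ball (0 : Space) R, sobSqr z x ≤ c → ∫ x in Ω, sobSqr z x ≤ c := fun hz hc =>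
          (setIntegral_mono_set (is hz) (Eventually.of_forall fun x => sobSqr_nonneg' _ x)
            hsub.eventuallyLE).trans hc
        have ib : IntegrableOn (fun x => 2 * P ^ 2 * τ ^ 7 * (sobSqr (w k) x + sobSqr (w' k) x)) Ω :=
          (((is (cw k)).mono_set hsub).add ((is (cw' k)).mono_set hsub)).const_mul _
        rw [integral_add (P136.integrableOn_of_continuous hbd continuous_const) iσ]
        have h1 : ∫ _x in Ω, τ = τ * vol := by rw [hvol, ← integral_const_mul, mul_one]
        have h2 : ∫ x in Ω, τ ^ 3 * σ x ^ 2 ≤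
            ∫ x in Ω, 2 * P ^ 2 * τ ^ 7 * (sobSqr (w k) x + sobSqr (w' k) x) := by
          refine setIntegral_mono iσ ib fun x => ?_
          simp only [hσ]
          have s1 := Real.sq_sqrt (sobSqr_nonneg' (w k) x)
          have s2 := Real.sq_sqrt (sobSqr_nonneg' (w' k) x)
          have h3 := mul_le_mul_of_nonneg_left
            (add_sq_le (a := √(sobSqr (w k) x)) (b := √(sobSqr (w' k) x)))
            (mul_nonneg (sq_nonneg P) (show (0 : ℝ) ≤ τ ^ 7 by positivity))
          rw [s1, s2] at h3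
          linarith
        rw [integral_const_mul (2 * P ^ 2 * τ ^ 7),
          integral_add ((is (cw k)).mono_set hsub) ((is (cw' k)).mono_set hsub)] at h2
        have h4 := mul_le_mul_of_nonneg_left (add_le_add (hs (cw k) (hwb k)) (hs (cw' k) (hwb' k)))
          (show (0 : ℝ) ≤ 2 * P ^ 2 * τ ^ 7 by positivity)
        have e : 2 * P ^ 2 * τ ^ 7 * (Cu / τ ^ (2 * 3) + Cv / τ ^ (2 * 3)) =
            τ * (2 * P ^ 2 * (Cu + Cv)) := by field_simp
        rw [e] at h4
        linarith
      have key : (τ : ℂ) ^ 2 * I =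
          (τ : ℂ) * (M₁.cform Ω (uk k) (vk k) - M₂.cform Ω (uk k) (vk k)) -
            ((τ : ℂ) * M₁.cform Ω (uk k) (vk k) - (τ : ℂ) ^ 2 * ∫ x in Ω, M₁.secondCoef θ W a h b x) +
            ((τ : ℂ) * M₂.cform Ω (uk k) (vk k) - (τ : ℂ) ^ 2 * ∫ x in Ω, M₂.secondCoef θ W a h b x) := by
        rw [hI, integral_sub (P136.integrableOn_of_continuous hbd (continuous_secondCoef M₁ θ cW ca cb ch))
          (P136.integrableOn_of_continuous hbd (continuous_secondCoef M₂ θ cW ca cb ch))]
        ring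
      have h5 := congrArg norm key
      rw [norm_mul, norm_pow, Complex.norm_real, Real.norm_eq_abs, sq_abs] at h5
      have h6 := (norm_add_le_of_le ((norm_sub_le _ _).trans (add_le_add
        (norm_mul_le (τ : ℂ) (M₁.cform Ω (uk k) (vk k) - M₂.cform Ω (uk k) (vk k))) b1)) b2)
      rw [← h5, Complex.norm_real, Real.norm_eq_abs, abs_of_nonneg (by linarith)] at h6
      have h7 := mul_le_mul_of_nonneg_left hJ (add_nonneg hC₁0 hC₂0)
      rw [hC]
      linarith
    have h8 := ge_of_tendsto' ((tendsto_zero_iff_norm_tendsto_zero.1 hlim).const_mul τ) hbk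
    rw [mul_zero] at h8
    linarith
  have hI0 : I = 0 := by
    by_contra hne
    have hpos : 0 < ‖I‖ := norm_pos_iff.2 hne
    set τ := max (max τu τv) (C / ‖I‖ + 1) with hτd
    have hb' := bound τ ((le_max_left _ _).trans (le_max_left _ _))
      ((le_max_right _ _).trans (le_max_left _ _))
    have hτ1 : 1 ≤ τ := hτu.trans ((le_max_left _ _).trans (le_max_left _ _))
    have hgt : C < τ * ‖I‖ := by
      rw [← div_lt_iff₀ hpos]; linarith [le_max_right (max τu τv) (C / ‖I‖ + 1)]
    nlinarith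
  have h9 : (-2 : ℂ) * ∫ x in Ω, dot4 (η x) (M₂.amat θ x (M₂.lead θ Y₀ Y₁ x) -
      M₁.amat θ x (M₂.lead θ Y₀ Y₁ x)) = 0 := hid ▸ hI0
  exact (mul_eq_zero.1 h9).resolve_left (by norm_num)

end

end Vale.Agent.P136.Full
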